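import Vale.Agent.P155.NT426.Side

/-!
# P155, NT, block C: the flux identity

For `H` harmonic on `O2 ⊆ O` which vanishes on the boundary faces with `P`, `∑ phS H` is the flux
`∑ wh O2 wS H` up to a bounded error; at the first time the flux is bounded.
-/

namespace Vale.Agent.P155.NT426

open Finset Vale.Agent.P155 G45 G S743 NT802 NT276 J T802 H12

/-- **Green's formula.** -/
theorem green2 {O : Set Pt} (hO : O.Finite) (w H : Pt → ℝ)
    (hb : ∀ x ∈ O, ∀ y, Adj x y → y ∉ O → w x * H y = 0) (hH : ∀ x ∈ O, lap H x = 0) :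
    ∑ x ∈ hO.toFinset, lap w x * H x = ∑ x ∈ hO.toFinset, wh O w x * H x := by
  classical
  set U := hO.toFinset with hU
  have hmem : ∀ x, x ∈ U ↔ x ∈ O := fun x => by simp [hU]
  have e0 : ∑ x ∈ U, lap w x * H x = ∑ x ∈ U, (lap w x * H x - w x * lap H x) := by
    apply sum_congr rfl
    intro x hx
    rw [hH x ((hmem x).1 hx), mul_zero, sub_zero]
  have e1 : ∀ x, lap w x * H x - w x * lap H x = ∑ y ∈ nbrs x, (w y * H x - w x * H y) := by
    intro x
    rw [lap_sum, lap_sum, sum_mul, mul_sum, ← sum_sub_distrib]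
    apply sum_congr rfl
    intro y _
    ring
  have e2 : ∑ x ∈ U, (lap w x * H x - w x * lap H x) =
      ∑ x ∈ U, ∑ y ∈ (nbrs x).filter (fun y => y ∈ U), (w y * H x - w x * H y) +
      ∑ x ∈ U, ∑ y ∈ (nbrs x).filter (fun y => y ∉ U), (w y * H x - w x * H y) := by
    rw [← sum_add_distrib]
    apply sum_congr rfl
    intro x _
    rw [e1, sum_filter_add_sum_filter_not]
  have e3 : ∑ x ∈ U, ∑ y ∈ (nbrs x).filter (fun y => y ∈ U), (w y * H x - w x * H y) = 0 := by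
    have h := NT.inner_swap U (fun x y => w y * H x - w x * H y)
    have h' : ∑ x ∈ U, ∑ y ∈ (nbrs x).filter (fun y => y ∈ U), (w x * H y - w y * H x) =
        - ∑ x ∈ U, ∑ y ∈ (nbrs x).filter (fun y => y ∈ U), (w y * H x - w x * H y) := by
      rw [← sum_neg_distrib]
      apply sum_congr rfl
      intro x _
      rw [← sum_neg_distrib]
      apply sum_congr rfl
      intro y _
      ring
    rw [h'] at h
    linarith
  rw [e0, e2, e3, zero_add]
  apply sum_congr rfl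
  intro x hx
  unfold wh
  rw [sum_mul]
  have e4 : (nbrs x).filter (fun a => a ∉ O) = (nbrs x).filter (fun y => y ∉ U) := by
    apply filter_congr
    intro a _
    rw [hmem]
  rw [e4]
  apply sum_congr rfl
  intro y hy
  obtain ⟨h1, h2⟩ := mem_filter.1 hy
  rw [hb x ((hmem x).1 hx) y (mem_nbrs.1 h1) (fun h => h2 ((hmem y).2 h)), sub_zero]

theorem sum_box_le {U : Finset Pt} {f : Pt → ℝ} {q : Pt} {r : ℕ} {c : ℝ} (hc : 0 ≤ c)
    (hf : ∀ x ∈ U, |f x| ≤ c) (hf0 : ∀ x ∈ U, r < dn q x → f x = 0) :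
    |∑ x ∈ U, f x| ≤ (2 * (r : ℝ) + 1) ^ 2 * c := by
  classical
  calc |∑ x ∈ U, f x| ≤ ∑ x ∈ U, |f x| := abs_sum_le_sum_abs _ _
    _ ≤ ∑ x ∈ U, (if dn q x ≤ r then c else 0) := by
        refine sum_le_sum fun x hx => ?_
        split_ifs with h
        · exact hf x hx
        · rw [hf0 x hx (by omega), abs_zero]
    _ ≤ ∑ _x ∈ box q r, c := by
        rw [← Finset.sum_filter]
        apply Finset.sum_le_sum_of_subset_of_nonneg
        · intro x hx
          exact G45.mem_box.2 (Finset.mem_filter.1 hx).2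
        · intro _ _ _
          exact hc
    _ = _ := by
        rw [Finset.sum_const, card_box, nsmul_eq_mul]
        push_cast
        ring

section

variable {O : Set Pt} {P : Pt → Prop} {q : Pt} {r1 d a s e : ℕ}

/-- the boundary terms of the second kind vanish -/
theorem bd_zero (hO : ∃ p, p ∉ O) (hsep : SepA O P q r1 d) (hd : 2 * e + 11 ≤ d) (hs : 16 ≤ s)
    (he : 16 ≤ e) (hr : a + s + (2 * e + 12) ≤ r1) {O2 : Set Pt} (hsub : O2 ⊆ O) {H : Pt → ℝ}
    (hHb : ∀ b, b ∉ O → P b → dn q b ≤ a + s + 1 → H b = 0)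
    (hnew : ∀ y ∈ O, y ∉ O2 → dn q y ≤ a + s + 1 → 2 * e + 1 ≤ dF O y) :
    ∀ x ∈ O2, ∀ y, Adj x y → y ∉ O2 → wS O P q r1 a s e x * H y = 0 := by
  classical
  intro x hx y hxy hy
  have hxO := hsub hx
  have hd1 := dn_of_adj hxy
  by_cases hq : a + s ≤ dn q x
  · rw [wS_far hs hq, zero_mul]
  have hqy : dn q y ≤ a + s + 1 := by
    have := dn_tri q x y
    omega
  by_cases hyO : y ∈ O
  · have h1 := hnew y hyO hy hqy
    have h2 := dF_lip hO y x
    rw [dn_comm y x] at h2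
    rw [wS_in hO he (by omega), zero_mul]
  · by_cases hP : P y
    · rw [hHb y hyO hP hqy, mul_zero]
    · have h1 : ¬ Seen O P q r1 (2 * e + 10) x := fun h =>
        hP ((seen_iff_adj hsep (by omega) hxO (by omega) hyO hxy).1 h)
      unfold wS
      rw [if_neg, zero_mul]
      rintro (h | h)
      · exact h1 h.2
      · exact h.1 hxO

/-- **flux identity** at a later time -/
theorem ident (hO : O.Finite) (hsep : SepA O P q r1 d) (hd : 2 * e + 11 ≤ d) (hs : 16 ≤ s)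
    (he : 64 ≤ e) (hr : a + s + (2 * e + 12) ≤ r1) {O2 : Set Pt} (h2 : O2.Finite)
    (hsub : O2 ⊆ O) {H : Pt → ℝ} (hH : ∀ x ∈ O2, lap H x = 0) (h1 : ∀ x, |H x| ≤ 1)
    (hHb : ∀ b, b ∉ O → P b → dn q b ≤ a + s + 1 → H b = 0)
    (hnew : ∀ y ∈ O, y ∉ O2 → dn q y ≤ a + s + 1 → 2 * e + 1 ≤ dF O y) :
    |∑ x ∈ h2.toFinset, phS O P q r1 a s e x * H x -
      ∑ x ∈ h2.toFinset, wh O2 (wS O P q r1 a s e) x * H x| ≤
      8192 * ((2 * ((a : ℝ) + s) + 3) / s) ^ 2 := by
  have hO' := exists_notMem hO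
  have hs0 : (0 : ℝ) < s := by
    have : 0 < s := by omega
    exact_mod_cast this
  rw [← green2 h2 _ H (bd_zero hO' hsep hd hs (by omega) hr hsub hHb hnew) hH,
    ← sum_sub_distrib]
  have h3 := sum_box_le (U := h2.toFinset)
    (f := fun x => phS O P q r1 a s e x * H x - lap (wS O P q r1 a s e) x * H x) (q := q)
    (r := a + s + 1) (c := 8192 / (s : ℝ) ^ 2) (by positivity)
    (fun x hx => by
      have hxO : x ∈ O := hsub (by simpa using hx)
      rw [← sub_mul, abs_mul]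
      refine (mul_le_of_le_one_right (abs_nonneg _) (h1 x)).trans ?_
      exact phS_sub_le hO' hsep hd hs he hr hxO)
    (fun x hx hq => by
      rw [phS_far hs (by omega), lap_eq_zero_of_far (q := q) (r := a + s)
        (fun y hy => wS_far hs hy) (by omega)]
      ring)
  refine h3.trans (le_of_eq ?_)
  push_cast
  field_simp
  ring

/-- **the flux at the first time** is bounded -/
theorem flux_first (hO : O.Finite) {D : ℕ} (hsep : SepA O P q r1 d) (hd : 2 * D + 11 ≤ d)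
    (hs : 16 ≤ s) (he : 16 ≤ e) (hD : 16 ≤ D) (hDs : D ≤ s) (hr : a + s + (2 * D + 12) ≤ r1)
    {H : Pt → ℝ} (hH : ∀ x ∈ O, lap H x = 0) (h1 : ∀ x, |H x| ≤ 1)
    (hHb : ∀ b, b ∉ O → P b → dn q b ≤ a + s + 1 → H b = 0) :
    |∑ x ∈ hO.toFinset, wh O (wS O P q r1 a s e) x * H x| ≤
      4194304 * ((2 * ((a : ℝ) + s) + 3) / D) ^ 2 := by
  have hO' := exists_notMem hO
  have hD0 : (0 : ℝ) < D := by
    have : 0 < D := by omega
    exact_mod_cast this
  have e1 : ∑ x ∈ hO.toFinset, wh O (wS O P q r1 a s e) x * H x =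
      ∑ x ∈ hO.toFinset, wh O (wS O P q r1 a s D) x * H x := by
    apply sum_congr rfl
    intro x _
    rw [wh_congr x (fun b _ hb => wS_bd_eq he hD hb)]
  rw [e1, ← green2 hO _ H (bd_zero hO' hsep hd hs hD hr subset_rfl hHb
    (fun y hy hy' => absurd hy hy')) hH]
  have h3 := sum_box_le (U := hO.toFinset)
    (f := fun x => lap (wS O P q r1 a s D) x * H x) (q := q)
    (r := a + s + 1) (c := 4194304 / (D : ℝ) ^ 2) (by positivity)
    (fun x hx => by
      have hxO : x ∈ O := by simpa using hx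
      rw [abs_mul]
      refine (mul_le_of_le_one_right (abs_nonneg _) (h1 x)).trans ?_
      exact lap_wS_le hO' hsep hd hs hD hDs hr hxO)
    (fun x hx hq => by
      rw [lap_eq_zero_of_far (q := q) (r := a + s) (fun y hy => wS_far hs hy) (by omega), zero_mul])
  refine h3.trans (le_of_eq ?_)
  push_cast
  field_simp
  ring

/-- `phS` is a bump -/
theorem phS_isBump (hO : ∃ p, p ∉ O) (hsep : SepA O P q r1 d) (hd : 2 * e + 11 ≤ d)
    (hs : 16 ≤ s) (he : 64 ≤ e) (hes : e ≤ s) (hr : a + s + (2 * e + 20) ≤ r1) {p : Pt} {n : ℕ}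
    (hp : dn p q + (a + s) ≤ n) {κ : ℝ} (hκ : 0 < κ) (hκ1 : κ ≤ 1) (hκn : κ * n ≤ e) :
    IsBump p n (67108864 / κ ^ 2 * (512 / κ) ^ 4 / (n : ℝ) ^ 2) (phS O P q r1 a s e) := by
  have hn : 1 ≤ n := by omega
  have hn0 : (0 : ℝ) < n := by exact_mod_cast hn
  have he0 : (0 : ℝ) < e := by
    have : 0 < e := by omega
    exact_mod_cast this
  refine ⟨fun y hy => ?_, fun α β hab y => ?_⟩
  · apply phS_far hs
    have h1 : ¬ dn p y ≤ n := fun h => hy (G45.mem_box.2 h)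
    have := dn_tri p q y
    omega
  · refine (phS_smB hO hsep hd hs he hes hr α β hab y).trans ?_
    have h4 : (e : ℝ) / 8 ≤ ((e / 4 : ℕ) : ℝ) := by
      have : e ≤ 8 * (e / 4) := by omega
      have h5 : (e : ℝ) ≤ 8 * ((e / 4 : ℕ) : ℝ) := by exact_mod_cast this
      linarith
    have h5 : 64 * (((e / 4 : ℕ) : ℝ))⁻¹ ≤ 512 / κ * (n : ℝ)⁻¹ := by
      have h6 : (((e / 4 : ℕ) : ℝ))⁻¹ ≤ ((e : ℝ) / 8)⁻¹ := inv_anti₀ (by positivity) h4
      have h7 : ((e : ℝ) / 8)⁻¹ ≤ (κ * n / 8)⁻¹ := inv_anti₀ (by positivity) (by linarith)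
      calc 64 * (((e / 4 : ℕ) : ℝ))⁻¹ ≤ 64 * (κ * n / 8)⁻¹ := by linarith
        _ = 512 / κ * (n : ℝ)⁻¹ := by
            field_simp
            norm_num
    have h8 : (64 * (((e / 4 : ℕ) : ℝ))⁻¹) ^ (α + β) ≤ (512 / κ) ^ 4 * ((n : ℝ)⁻¹) ^ (α + β) := by
      refine (pow_le_pow_left₀ (by positivity) h5 _).trans ?_
      rw [mul_pow]
      apply mul_le_mul_of_nonneg_right _ (by positivity)
      apply pow_le_pow_right₀ _ hab
      rw [le_div_iff₀ hκ]
      linarith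
    have h9 : 67108864 / (e : ℝ) ^ 2 ≤ 67108864 / (κ ^ 2 * (n : ℝ) ^ 2) := by
      apply div_le_div_of_nonneg_left (by norm_num) (by positivity)
      rw [← mul_pow]
      exact pow_le_pow_left₀ (by positivity) hκn 2
    calc 67108864 / (e : ℝ) ^ 2 * (64 * (((e / 4 : ℕ) : ℝ))⁻¹) ^ (α + β)
        ≤ 67108864 / (κ ^ 2 * (n : ℝ) ^ 2) * ((512 / κ) ^ 4 * ((n : ℝ)⁻¹) ^ (α + β)) :=
          mul_le_mul h9 h8 (by positivity) (by positivity)
      _ = _ := by
          field_simp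

/-- **the far part** for `phS`, in the form of `far_sum` -/
theorem far_phS : ∃ C : ℝ, 0 < C ∧ ∀ (O O2 : Set Pt) (P : Pt → Prop), O.Finite → O2.Finite →
    O2 ⊆ O → CPr O → CPr O2 → ∀ (q b : Pt) (r1 d a s e D t ρ A : ℕ) (Cc : ℝ) (χ u : Pt → ℝ),
      SepA O P q r1 d → 2 * D + 11 ≤ d → 16 ≤ s → 64 ≤ e → e ≤ D → D ≤ s → D ≤ ρ →
      a + s + (2 * D + 20) ≤ r1 → a + s + 1 ≤ 2 * ρ → 1 ≤ t → t ≤ ρ → b ∉ O → dn q b ≤ A * ρ →
      (∀ y ∈ O, y ∉ O2 → dn q y ≤ a + s + 1 → 2 * e + 1 ≤ dF O y) →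
      IsCut O2 t Cc χ → IsGreen O2 (phS O P q r1 a s e) u →
      ∀ S : Finset Pt, (∀ x ∈ S, 4 * ρ ≤ dn q x) →
        ∑ x ∈ S, |fL O2 (phS O P q r1 a s e) χ u x| ≤
          C * (Cc + 1) * ((A : ℝ) + 4) ^ 2 * (ρ / D) ^ 2 := by
  classical
  obtain ⟨C, hC, hfar⟩ := far_sum
  refine ⟨C * (3 * 4194304), by positivity, ?_⟩
  intro O O2 P h1 h2 hsub hCP1 hCP2 q b r1 d a s e D t ρ A Cc χ u hsep hd hs he heD hDs hDρ hr hρ ht
    htρ hb hqb hnew hχ hu S hS
  have hO' := exists_notMem h1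
  have hρ0 : (0 : ℝ) < ρ := by
    have : 0 < ρ := by omega
    exact_mod_cast this
  have hD0 : (0 : ℝ) < D := by
    have : 0 < D := by omega
    exact_mod_cast this
  have hs0 : (0 : ℝ) < s := by
    have : 0 < s := by omega
    exact_mod_cast this
  have hDs' : (D : ℝ) ≤ s := by exact_mod_cast hDs
  have hCc := cut_C0_nonneg hχ
  have h := hfar O O2 h1 h2 hsub hCP1 hCP2 t ρ A Cc (8192 * (ρ / D) ^ 2) (4194304 * (ρ / D) ^ 2)
    χ (phS O P q r1 a s e) u (wS O P q r1 a s e) (wS O P q r1 a s D) q b ht htρ (by positivity)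
    (by positivity) hχ hu (fun y hy => phS_far hs (by omega)) hb hqb
    (fun y => wS_nonneg (by omega) y) (fun y hy => wS_far hs (by omega))
    (fun x hx => by
      refine (phS_sub_le hO' hsep (by omega) hs he (by omega) (hsub hx)).trans ?_
      have e1 : 8192 * ((ρ : ℝ) / D) ^ 2 / (ρ : ℝ) ^ 2 = 8192 / (D : ℝ) ^ 2 := by
        field_simp
      rw [e1]
      apply div_le_div_of_nonneg_left (by norm_num) (by positivity)
      exact pow_le_pow_left₀ hD0.le hDs' 2)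
    (fun y hy hy2 => by
      by_cases hq : dn q y ≤ a + s + 1
      · exact wS_in hO' (by omega) (by have := hnew y hy hy2 hq; omega)
      · exact wS_far hs (by omega))
    (fun y => wS_nonneg (by omega) y) (fun y => wS_le_one hs (by omega) y)
    (fun y hy => wS_far hs (by omega))
    (fun y hy => by
      refine (le_abs_self _).trans ((lap_wS_le hO' hsep hd hs (by omega) hDs (by omega) hy).trans
        (le_of_eq ?_))
      field_simp)
    (fun y hy => (wS_bd_eq (by omega) (by omega) hy).le) S hS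
  refine h.trans ?_
  have hone : (1 : ℝ) ≤ (ρ / D) ^ 2 := by
    have h6 : (1 : ℝ) ≤ ρ / D := by
      rw [le_div_iff₀ hD0, one_mul]
      exact_mod_cast hDρ
    exact one_le_pow₀ h6
  have hA : (1 : ℝ) ≤ ((A : ℝ) + 4) ^ 2 := by
    have : (0 : ℝ) ≤ A := Nat.cast_nonneg A
    nlinarith
  have key : ((A : ℝ) + 4) ^ 2 * (4194304 * ((ρ : ℝ) / D) ^ 2 + 1) + 8192 * ((ρ : ℝ) / D) ^ 2 ≤
      (3 * 4194304) * (((A : ℝ) + 4) ^ 2 * ((ρ : ℝ) / D) ^ 2) := by
    set X := ((A : ℝ) + 4) ^ 2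
    set Y := ((ρ : ℝ) / D) ^ 2
    have h5 : X * 1 ≤ X * Y := mul_le_mul_of_nonneg_left hone (by linarith)
    have h6 : 1 * Y ≤ X * Y := mul_le_mul_of_nonneg_right hA (by linarith)
    nlinarith
  calc C * (Cc + 1) * (((A : ℝ) + 4) ^ 2 * (4194304 * ((ρ : ℝ) / D) ^ 2 + 1) +
        8192 * ((ρ : ℝ) / D) ^ 2)
      ≤ C * (Cc + 1) * ((3 * 4194304) * (((A : ℝ) + 4) ^ 2 * ((ρ : ℝ) / D) ^ 2)) :=
        mul_le_mul_of_nonneg_left key (by positivity)
    _ = _ := by ring

/-- 802's separation is `SepA` for the outer and for the inner side -/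
theorem sepA_inner {T : Temp} {ω : Conf} {L E : Set Pt} (h : Sep T ω L E q r1 d) :
    SepA (OE T E) (fun a => surr ω L a) q r1 d := h

theorem sepA_outer {T : Temp} {ω : Conf} {L E : Set Pt} (h : Sep T ω L E q r1 d) :
    SepA (OE T E) (fun a => ¬ surr ω L a) q r1 d := (sepA_inner h).not

end

end Vale.Agent.P155.NT426
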