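import Vale.Agent.P155.NT426.Smooth
import Vale.Agent.P155.NT802.Sep
import Vale.Agent.P155.NT276.FarSum

/-!
# P155, NT, block C: the side weight

`O` free faces, `P` a property of the boundary faces (of the faces which are not in `O`), constant
along free paths of extent `d` inside `box q r1`.  `Seen x`: the boundary seen from `x` has `P`.
`wS` = plateau times (1 - cut-off) on the side `P`, `phS` = its Laplacian, cut off near the boundary.
-/

namespace Vale.Agent.P155.NT426

open Finset Vale.Agent.P155 G45 G S743 NT802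

/-- separation of the two sides -/
def SepA (O : Set Pt) (P : Pt → Prop) (q : Pt) (r1 d : ℕ) : Prop :=
  ∀ z f f' : Pt, Conn {x | x ∈ O ∧ x ∈ box q r1 ∧ x ∈ box z d} f f' →
    ∀ a a' : Pt, a ∉ O → a' ∉ O → Adj f a → Adj f' a' → (P a ↔ P a')

theorem SepA.not {O : Set Pt} {P : Pt → Prop} {q : Pt} {r1 d : ℕ} (h : SepA O P q r1 d) :
    SepA O (fun a => ¬ P a) q r1 d :=
  fun z f f' c a a' h1 h2 h3 h4 => not_congr (h z f f' c a a' h1 h2 h3 h4)

theorem SepA.mono {O : Set Pt} {P : Pt → Prop} {q : Pt} {r1 r1' d d' : ℕ} (h : SepA O P q r1 d)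
    (hr : r1' ≤ r1) (hd : d' ≤ d) : SepA O P q r1' d' := by
  intro z f f' c a a' h1 h2 h3 h4
  refine h z f f' (Conn.mono ?_ c) a a' h1 h2 h3 h4
  rintro x ⟨x1, x2, x3⟩
  exact ⟨x1, box_mono hr x2, box_mono hd x3⟩

/-- the boundary seen from `x` within distance `m` has `P` -/
def Seen (O : Set Pt) (P : Pt → Prop) (q : Pt) (r1 m : ℕ) (x : Pt) : Prop :=
  ∃ f' a : Pt, Conn {y | y ∈ O ∧ y ∈ box q r1 ∧ y ∈ box x m} x f' ∧ Adj f' a ∧ a ∉ O ∧ P a

theorem Seen.congr {O : Set Pt} {P P' : Pt → Prop} {q : Pt} {r1 m : ℕ} {x : Pt}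
    (h : ∀ a, a ∉ O → (P a ↔ P' a)) : Seen O P q r1 m x ↔ Seen O P' q r1 m x := by
  constructor
  · rintro ⟨f', a, h1, h2, h3, h4⟩
    exact ⟨f', a, h1, h2, h3, (h a h3).1 h4⟩
  · rintro ⟨f', a, h1, h2, h3, h4⟩
    exact ⟨f', a, h1, h2, h3, (h a h3).2 h4⟩

theorem adj_sym {x y : Pt} (h : Adj x y) : Adj y x := L.adj_symm h

theorem dn_of_adj {x y : Pt} (h : Adj x y) : dn x y = 1 := by
  unfold Adj at h
  rw [dn_eq]
  have h1 := Int.abs_eq_natAbs (x.1 - y.1)
  have h2 := Int.abs_eq_natAbs (x.2 - y.2)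
  omega

/-- a face near the boundary sees a boundary face -/
theorem near_seen {O : Set Pt} (hO : ∃ p, p ∉ O) {q x : Pt} {r1 m : ℕ} (hx : x ∈ O)
    (hm : dF O x ≤ m) (hr : dn q x + m ≤ r1) :
    ∃ f' a : Pt, Conn {y | y ∈ O ∧ y ∈ box q r1 ∧ y ∈ box x m} x f' ∧ Adj f' a ∧ a ∉ O := by
  obtain ⟨y, hy, hxy⟩ := exists_dF hO x
  set S : Set Pt := {z | z ∈ O ∧ z ∈ box q r1 ∧ z ∈ box x m} with hS
  have hmem : ∀ z : Pt, z ∈ O → min x.1 y.1 ≤ z.1 → z.1 ≤ max x.1 y.1 → min x.2 y.2 ≤ z.2 →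
      z.2 ≤ max x.2 y.2 → z ∈ S := by
    intro z hz h1 h2 h3 h4
    have h5 : dn x z ≤ dn x y := by
      rw [dn_eq, dn_eq]
      omega
    have h6 := dn_tri q x z
    exact ⟨hz, mem_box.2 (by omega), mem_box.2 (by omega)⟩
  have key : ∀ n : ℕ, ∀ z : Pt, (z.1 - y.1).natAbs + (z.2 - y.2).natAbs = n → z ∈ O →
      min x.1 y.1 ≤ z.1 → z.1 ≤ max x.1 y.1 → min x.2 y.2 ≤ z.2 → z.2 ≤ max x.2 y.2 →
      ∃ f' a : Pt, Conn S z f' ∧ Adj f' a ∧ a ∉ O := by
    intro n
    induction n with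
    | zero =>
      intro z hn hz _ _ _ _
      exact absurd (show z = y from Prod.ext (by omega) (by omega)) (fun h => hy (h ▸ hz))
    | succ n ih =>
      intro z hn hz h1 h2 h3 h4
      have hzS := hmem z hz h1 h2 h3 h4
      obtain ⟨z', hadj, hn', g1, g2, g3, g4⟩ : ∃ z' : Pt, Adj z z' ∧
          (z'.1 - y.1).natAbs + (z'.2 - y.2).natAbs = n ∧ min x.1 y.1 ≤ z'.1 ∧
          z'.1 ≤ max x.1 y.1 ∧ min x.2 y.2 ≤ z'.2 ∧ z'.2 ≤ max x.2 y.2 := by
        rcases lt_trichotomy z.1 y.1 with h | h | h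
        · refine ⟨(z.1 + 1, z.2), ?_, ?_, ?_, ?_, ?_, ?_⟩
          · unfold Adj; simp
          all_goals simp only; omega
        · rcases lt_trichotomy z.2 y.2 with h' | h' | h'
          · refine ⟨(z.1, z.2 + 1), ?_, ?_, ?_, ?_, ?_, ?_⟩
            · unfold Adj; simp
            all_goals simp only; omega
          · exfalso; omega
          · refine ⟨(z.1, z.2 - 1), ?_, ?_, ?_, ?_, ?_, ?_⟩
            · unfold Adj; simp
            all_goals simp only; omega
        · refine ⟨(z.1 - 1, z.2), ?_, ?_, ?_, ?_, ?_, ?_⟩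
          · unfold Adj; simp
          all_goals simp only; omega
      by_cases hz' : z' ∈ O
      · obtain ⟨f', a, c, h5, h6⟩ := ih z' hn' hz' g1 g2 g3 g4
        exact ⟨f', a, (Conn.step hzS (hmem z' hz' g1 g2 g3 g4) hadj).trans c, h5, h6⟩
      · exact ⟨z, z', Conn.refl hzS, hadj, hz'⟩
  exact key _ x rfl hx (by omega) (by omega) (by omega) (by omega)

section

variable {O : Set Pt} {P : Pt → Prop} {q : Pt} {r1 d m : ℕ}

theorem seen_iff_adj (hsep : SepA O P q r1 d) (hmd : m ≤ d) {x a : Pt} (hx : x ∈ O)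
    (hqx : dn q x ≤ r1) (ha : a ∉ O) (hxa : Adj x a) : Seen O P q r1 m x ↔ P a := by
  constructor
  · rintro ⟨f', a', c, h1, h2, h3⟩
    refine (hsep x x f' (Conn.mono ?_ c) a a' ha h2 hxa h1).2 h3
    rintro y ⟨y1, y2, y3⟩
    exact ⟨y1, y2, box_mono hmd y3⟩
  · intro h
    exact ⟨x, a, Conn.refl ⟨hx, mem_box.2 hqx, mem_box.2 (by rw [dn_self]; omega)⟩, hxa, ha, h⟩

theorem seen_step (hO : ∃ p, p ∉ O) (hsep : SepA O P q r1 d) (hmd : m + 1 ≤ d) {x y : Pt}
    (hx : x ∈ O) (hy : y ∈ O) (hxy : Adj x y) (hdy : dF O y ≤ m) (hqy : dn q y + m ≤ r1)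
    (h : Seen O P q r1 m x) : Seen O P q r1 m y := by
  obtain ⟨f', a, c, h1, h2, h3⟩ := h
  obtain ⟨f2, a2, c2, h4, h5⟩ := near_seen hO hy hdy hqy
  have hd := dn_of_adj hxy
  have c' : Conn {z | z ∈ O ∧ z ∈ box q r1 ∧ z ∈ box x d} x f' := by
    refine Conn.mono ?_ c
    rintro z ⟨z1, z2, z3⟩
    exact ⟨z1, z2, box_mono (by omega) z3⟩
  have c2' : Conn {z | z ∈ O ∧ z ∈ box q r1 ∧ z ∈ box x d} y f2 := by
    refine Conn.mono ?_ c2
    rintro z ⟨z1, z2, z3⟩
    refine ⟨z1, z2, mem_box.2 ?_⟩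
    have := mem_box.1 z3
    have := dn_tri x y z
    omega
  have c3 : Conn {z | z ∈ O ∧ z ∈ box q r1 ∧ z ∈ box x d} x f2 :=
    (Conn.step c'.1 c2'.1 hxy).trans c2'
  have h6 : P a2 := (hsep x f' f2 (c'.symm.trans c3) a a2 h2 h5 h1 h4).1 h3
  exact ⟨f2, a2, c2, h4, h5, h6⟩

theorem seen_adj (hO : ∃ p, p ∉ O) (hsep : SepA O P q r1 d) (hmd : m + 1 ≤ d) {x y : Pt}
    (hx : x ∈ O) (hy : y ∈ O) (hxy : Adj x y) (hdx : dF O x ≤ m) (hdy : dF O y ≤ m)
    (hqx : dn q x + m ≤ r1) (hqy : dn q y + m ≤ r1) :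
    Seen O P q r1 m x ↔ Seen O P q r1 m y :=
  ⟨seen_step hO hsep hmd hx hy hxy hdy hqy, seen_step hO hsep hmd hy hx (adj_sym hxy) hdx hqx⟩

end

/-! ## the weight -/

/-- plateau times (1 - cut-off) -/
noncomputable def GG (O : Set Pt) (q : Pt) (a s e : ℕ) (x : Pt) : ℝ :=
  plat q a s x * (1 - cut8 O e x)

open Classical in
/-- the weight of the side `P` -/
noncomputable def wS (O : Set Pt) (P : Pt → Prop) (q : Pt) (r1 a s e : ℕ) (x : Pt) : ℝ :=
  if (x ∈ O ∧ Seen O P q r1 (2 * e + 10) x) ∨ (x ∉ O ∧ P x) then GG O q a s e x else 0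

open Classical in
/-- its Laplacian, cut off near the boundary -/
noncomputable def phS (O : Set Pt) (P : Pt → Prop) (q : Pt) (r1 a s e : ℕ) (x : Pt) : ℝ :=
  if x ∈ O ∧ Seen O P q r1 (2 * e + 10) x then cut8 O (e / 4) x * lap (GG O q a s e) x else 0

theorem phS_congr {O : Set Pt} {P P' : Pt → Prop} {q : Pt} {r1 a s e : ℕ}
    (h : ∀ b, b ∉ O → (P b ↔ P' b)) : phS O P q r1 a s e = phS O P' q r1 a s e := by
  funext x
  unfold phS
  have e1 : (x ∈ O ∧ Seen O P q r1 (2 * e + 10) x) ↔ (x ∈ O ∧ Seen O P' q r1 (2 * e + 10) x) := by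
    rw [Seen.congr h]
  by_cases hx : x ∈ O ∧ Seen O P q r1 (2 * e + 10) x
  · rw [if_pos hx, if_pos (e1.1 hx)]
  · rw [if_neg hx, if_neg (fun h => hx (e1.2 h))]

section

variable {O : Set Pt} {P : Pt → Prop} {q : Pt} {r1 d a s e : ℕ}

theorem GG_nonneg (he : 16 ≤ e) (x : Pt) : 0 ≤ GG O q a s e x := by
  unfold GG
  exact mul_nonneg (plat_nonneg _ _ _ _) (by linarith [cut8_le_one O he x])

theorem GG_le_one (hs : 16 ≤ s) (_he : 16 ≤ e) (x : Pt) : GG O q a s e x ≤ 1 := by
  unfold GG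
  have h1 := cut8_nonneg O e x
  have h2 := plat_le_one q a hs x
  have h3 := plat_nonneg q a s x
  nlinarith

theorem GG_far (hs : 16 ≤ s) {x : Pt} (hx : a + s ≤ dn q x) : GG O q a s e x = 0 := by
  unfold GG
  rw [plat_zero hs hx, zero_mul]

theorem GG_in (hO : ∃ p, p ∉ O) (he : 16 ≤ e) {x : Pt} (hx : 2 * e ≤ dF O x) :
    GG O q a s e x = 0 := by
  unfold GG
  rw [cut8_one hO he hx, sub_self, mul_zero]

theorem GG_near (hO : ∃ p, p ∉ O) (he : 16 ≤ e) {x : Pt} (hx : dF O x ≤ e) :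
    GG O q a s e x = plat q a s x := by
  unfold GG
  rw [cut8_zero hO he hx, sub_zero, mul_one]

theorem lap_congr {f g : Pt → ℝ} {x : Pt} (h : ∀ y, dn x y ≤ 1 → f y = g y) : lap f x = lap g x := by
  unfold lap
  rw [h _ (by rw [dn_eq]; simp), h _ (by rw [dn_eq]; simp), h _ (by rw [dn_eq]; simp),
    h _ (by rw [dn_eq]; simp), h x (by rw [dn_self]; omega)]

theorem lap_zero' {f : Pt → ℝ} {x : Pt} (h : ∀ y, dn x y ≤ 1 → f y = 0) : lap f x = 0 := by
  rw [lap_congr (g := fun _ => 0) h, lap_const]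

theorem lap_congr_adj {f g : Pt → ℝ} {x : Pt} (h : ∀ y, Adj x y → f y = g y) (h0 : f x = g x) :
    lap f x = lap g x := by
  unfold lap
  rw [h (x.1 + 1, x.2) (by unfold Adj; simp), h (x.1 - 1, x.2) (by unfold Adj; simp),
    h (x.1, x.2 + 1) (by unfold Adj; simp), h (x.1, x.2 - 1) (by unfold Adj; simp), h0]

theorem lapGG_far (hs : 16 ≤ s) {x : Pt} (hx : a + s + 1 ≤ dn q x) : lap (GG O q a s e) x = 0 := by
  apply lap_zero'
  intro y hy
  apply GG_far hs
  have := dn_tri q y x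
  rw [dn_comm y x] at this
  omega

theorem lapGG_in (hO : ∃ p, p ∉ O) (he : 16 ≤ e) {x : Pt} (hx : 2 * e + 1 ≤ dF O x) :
    lap (GG O q a s e) x = 0 := by
  apply lap_zero'
  intro y hy
  apply GG_in hO he
  have := dF_lip hO x y
  omega

theorem wS_nonneg (he : 16 ≤ e) (x : Pt) : 0 ≤ wS O P q r1 a s e x := by
  unfold wS
  split_ifs
  · exact GG_nonneg he x
  · exact le_rfl

theorem wS_le_one (hs : 16 ≤ s) (he : 16 ≤ e) (x : Pt) : wS O P q r1 a s e x ≤ 1 := by
  unfold wS
  split_ifs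
  · exact GG_le_one hs he x
  · exact zero_le_one

theorem wS_far (hs : 16 ≤ s) {x : Pt} (hx : a + s ≤ dn q x) : wS O P q r1 a s e x = 0 := by
  unfold wS
  rw [GG_far hs hx, ite_self]

theorem wS_in (hO : ∃ p, p ∉ O) (he : 16 ≤ e) {x : Pt} (hx : 2 * e ≤ dF O x) :
    wS O P q r1 a s e x = 0 := by
  unfold wS
  rw [GG_in hO he hx, ite_self]

open Classical in
theorem wS_bd (he : 16 ≤ e) {x : Pt} (hx : x ∉ O) :
    wS O P q r1 a s e x = if P x then plat q a s x else 0 := by
  unfold wS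
  rw [GG_near ⟨x, hx⟩ he (by rw [dF_of_notMem hx]; omega)]
  by_cases h : P x
  · rw [if_pos (Or.inr ⟨hx, h⟩), if_pos h]
  · rw [if_neg, if_neg h]
    rintro (h1 | h1)
    · exact hx h1.1
    · exact h h1.2

/-- the weight does not see the scale on the boundary -/
theorem wS_bd_eq {e' : ℕ} (he : 16 ≤ e) (he' : 16 ≤ e') {x : Pt} (hx : x ∉ O) :
    wS O P q r1 a s e x = wS O P q r1 a s e' x := by
  classical
  rw [wS_bd he hx, wS_bd he' hx]

open Classical in
/-- the Laplacian of the weight inside `O` -/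
theorem lap_wS (hO : ∃ p, p ∉ O) (hsep : SepA O P q r1 d) (hd : 2 * e + 11 ≤ d) (hs : 16 ≤ s)
    (he : 16 ≤ e) (hr : a + s + (2 * e + 12) ≤ r1) {x : Pt} (hx : x ∈ O) :
    lap (wS O P q r1 a s e) x =
      if Seen O P q r1 (2 * e + 10) x then lap (GG O q a s e) x else 0 := by
  by_cases hq : a + s + 1 ≤ dn q x
  · rw [lapGG_far hs hq, ite_self]
    apply lap_zero'
    intro y hy
    apply wS_far hs
    have := dn_tri q y x
    rw [dn_comm y x] at this
    omega
  by_cases hdx : 2 * e + 2 ≤ dF O x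
  · rw [lapGG_in hO he (by omega), ite_self]
    apply lap_zero'
    intro y hy
    apply wS_in hO he
    have := dF_lip hO x y
    omega
  have hval : ∀ y, y = x ∨ Adj x y → wS O P q r1 a s e y =
      if Seen O P q r1 (2 * e + 10) x then GG O q a s e y else 0 := by
    intro y hy
    have hxy : dn x y ≤ 1 := by
      rcases hy with rfl | hy
      · rw [dn_self]; omega
      · exact (dn_of_adj hy).le
    have hqy : dn q y ≤ a + s + 1 := by
      have := dn_tri q x y
      omega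
    have key : ((y ∈ O ∧ Seen O P q r1 (2 * e + 10) y) ∨ (y ∉ O ∧ P y)) ↔
        Seen O P q r1 (2 * e + 10) x := by
      by_cases hyO : y ∈ O
      · have hdy : dF O y ≤ 2 * e + 10 := by
          have := dF_lip hO y x
          rw [dn_comm y x] at this
          omega
        have h1 : Seen O P q r1 (2 * e + 10) x ↔ Seen O P q r1 (2 * e + 10) y := by
          rcases hy with rfl | hy
          · exact Iff.rfl
          · exact seen_adj hO hsep (by omega) hx hyO hy (by omega) hdy (by omega) (by omega)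
        rw [h1]
        constructor
        · rintro (h | h)
          · exact h.2
          · exact absurd hyO h.1
        · intro h
          exact Or.inl ⟨hyO, h⟩
      · have hadj : Adj x y := by
          rcases hy with rfl | hy
          · exact absurd hx hyO
          · exact hy
        rw [seen_iff_adj hsep (by omega) hx (by omega) hyO hadj]
        constructor
        · rintro (h | h)
          · exact absurd h.1 hyO
          · exact h.2
        · intro h
          exact Or.inr ⟨hyO, h⟩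
    unfold wS
    simp only [key]
  by_cases hseen : Seen O P q r1 (2 * e + 10) x
  · rw [if_pos hseen]
    simp only [if_pos hseen] at hval
    exact lap_congr_adj (fun y hy => hval y (Or.inr hy)) (hval x (Or.inl rfl))
  · rw [if_neg hseen]
    simp only [if_neg hseen] at hval
    rw [lap_congr_adj (g := fun _ => 0) (fun y hy => hval y (Or.inr hy)) (hval x (Or.inl rfl)),
      lap_const]

theorem GG_smB (hs : 16 ≤ s) (he : 16 ≤ e) (hes : e ≤ s) :
    SmB 8 (64 * (e : ℝ)⁻¹) 512 (GG O q a s e) := by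
  have he0 : (0 : ℝ) < e := by
    have : 0 < e := by omega
    exact_mod_cast this
  have hinv : (s : ℝ)⁻¹ ≤ (e : ℝ)⁻¹ := inv_anti₀ he0 (by exact_mod_cast hes)
  have h1 := (plat_smB q a hs).mono (by positivity) (show 64 * (s : ℝ)⁻¹ ≤ 64 * (e : ℝ)⁻¹ by
    linarith) le_rfl
  have h2 := (cut8_smB O he).one_sub (by positivity)
  have h3 := h1.mul (by positivity) h2
  have e1 : (2 : ℝ) ^ 8 * (1 * (1 + 1)) = 512 := by norm_num
  rw [e1] at h3
  exact h3

theorem lapGG_le (hs : 16 ≤ s) (he : 16 ≤ e) (hes : e ≤ s) (x : Pt) :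
    |lap (GG O q a s e) x| ≤ 4194304 / (e : ℝ) ^ 2 := by
  have h := ((GG_smB (O := O) (q := q) (a := a) hs he hes).low (show 6 + 2 ≤ 8 by norm_num)).lap
  refine (h.abs x).trans (le_of_eq ?_)
  rw [mul_pow, inv_pow]
  ring

theorem lap_plat_le (hs : 16 ≤ s) (x : Pt) : |lap (plat q a s) x| ≤ 8192 / (s : ℝ) ^ 2 := by
  have h := ((plat_smB q a hs).low (show 6 + 2 ≤ 8 by norm_num)).lap
  refine (h.abs x).trans (le_of_eq ?_)
  rw [mul_pow, inv_pow]
  ring

/-- the Laplacian of the weight is of order `e⁻²` -/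
theorem lap_wS_le (hO : ∃ p, p ∉ O) (hsep : SepA O P q r1 d) (hd : 2 * e + 11 ≤ d) (hs : 16 ≤ s)
    (he : 16 ≤ e) (hes : e ≤ s) (hr : a + s + (2 * e + 12) ≤ r1) {x : Pt} (hx : x ∈ O) :
    |lap (wS O P q r1 a s e) x| ≤ 4194304 / (e : ℝ) ^ 2 := by
  classical
  rw [lap_wS hO hsep hd hs he hr hx]
  split_ifs
  · exact lapGG_le hs he hes x
  · rw [abs_zero]; positivity

/-- `phS` is the Laplacian of the weight up to `s⁻²` -/
theorem phS_sub_le (hO : ∃ p, p ∉ O) (hsep : SepA O P q r1 d) (hd : 2 * e + 11 ≤ d) (hs : 16 ≤ s)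
    (he : 64 ≤ e) (hr : a + s + (2 * e + 12) ≤ r1) {x : Pt} (hx : x ∈ O) :
    |phS O P q r1 a s e x - lap (wS O P q r1 a s e) x| ≤ 8192 / (s : ℝ) ^ 2 := by
  classical
  rw [lap_wS hO hsep hd hs (by omega) hr hx]
  unfold phS
  by_cases hseen : Seen O P q r1 (2 * e + 10) x
  · rw [if_pos ⟨hx, hseen⟩, if_pos hseen]
    by_cases hdx : 2 * (e / 4) ≤ dF O x
    · rw [cut8_one hO (by omega) hdx, one_mul, sub_self, abs_zero]
      positivity
    · have e1 : lap (GG O q a s e) x = lap (plat q a s) x := by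
        apply lap_congr
        intro y hy
        apply GG_near hO (by omega)
        have := dF_lip hO y x
        rw [dn_comm y x] at this
        omega
      rw [e1]
      have h1 := cut8_nonneg O (e / 4) x
      have h2 := cut8_le_one O (s := e / 4) (by omega) x
      have h3 : cut8 O (e / 4) x * lap (plat q a s) x - lap (plat q a s) x =
          (cut8 O (e / 4) x - 1) * lap (plat q a s) x := by ring
      rw [h3, abs_mul]
      refine (mul_le_of_le_one_left (abs_nonneg _) ?_).trans (lap_plat_le hs x)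
      rw [abs_le]
      constructor <;> linarith
  · rw [if_neg (fun h => hseen h.2), if_neg hseen, sub_self, abs_zero]
    positivity

theorem phS_far (hs : 16 ≤ s) {x : Pt} (hx : a + s + 1 ≤ dn q x) : phS O P q r1 a s e x = 0 := by
  unfold phS
  rw [lapGG_far hs hx, mul_zero, ite_self]

theorem phS_off {x : Pt} (hx : x ∉ O) : phS O P q r1 a s e x = 0 := by
  unfold phS
  rw [if_neg (fun h => hx h.1)]

/-- the smooth function behind `phS` -/
theorem ph0_smB (hs : 16 ≤ s) (he : 64 ≤ e) (hes : e ≤ s) :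
    SmB 4 (64 * (((e / 4 : ℕ) : ℝ))⁻¹) (67108864 / (e : ℝ) ^ 2)
      (fun x => cut8 O (e / 4) x * lap (GG O q a s e) x) := by
  have he4 : (0 : ℝ) < ((e / 4 : ℕ) : ℝ) := by
    have : 0 < e / 4 := by omega
    exact_mod_cast this
  have he0 : (0 : ℝ) < e := by
    have : 0 < e := by omega
    exact_mod_cast this
  have hinv : (e : ℝ)⁻¹ ≤ (((e / 4 : ℕ) : ℝ))⁻¹ := by
    apply inv_anti₀ he4
    exact_mod_cast Nat.div_le_self e 4
  have h1 := (cut8_smB O (s := e / 4) (by omega)).low (show 4 ≤ 8 by norm_num)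
  have h2 := (((GG_smB (O := O) (q := q) (a := a) hs (by omega) hes).low
    (show 4 + 2 ≤ 8 by norm_num)).lap).mono (τ' := 64 * (((e / 4 : ℕ) : ℝ))⁻¹) (by positivity)
    (by linarith) le_rfl
  have h3 := h1.mul (by positivity) h2
  refine h3.mono (by positivity) le_rfl (le_of_eq ?_)
  rw [mul_pow, inv_pow]
  ring

theorem stencil_seen (hO : ∃ p, p ∉ O) (hsep : SepA O P q r1 d) (hd : 2 * e + 11 ≤ d)
    (hr : a + s + (2 * e + 20) ≤ r1) {z : Pt}
    (hin : ∀ i j : ℕ, i ≤ 4 → j ≤ 4 → ((z.1 + i, z.2 + j) : Pt) ∈ O)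
    (hdF : ∀ i j : ℕ, i ≤ 4 → j ≤ 4 → dF O (z.1 + i, z.2 + j) ≤ 2 * e + 10)
    (hq : ∀ i j : ℕ, i ≤ 4 → j ≤ 4 → dn q (z.1 + i, z.2 + j) ≤ a + s + 10) :
    ∀ i j : ℕ, i ≤ 4 → j ≤ 4 →
      (Seen O P q r1 (2 * e + 10) (z.1 + i, z.2 + j) ↔ Seen O P q r1 (2 * e + 10) z) := by
  have hx : ∀ i : ℕ, i ≤ 4 → (Seen O P q r1 (2 * e + 10) (z.1 + i, z.2) ↔
      Seen O P q r1 (2 * e + 10) z) := by
    intro i
    induction i with
    | zero => intro _; simp
    | succ i ih =>
      intro hi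
      rw [← ih (by omega)]
      have a1 := hin i 0 (by omega) (by omega)
      have a2 := hin (i + 1) 0 (by omega) (by omega)
      have b1 := hdF i 0 (by omega) (by omega)
      have b2 := hdF (i + 1) 0 (by omega) (by omega)
      have c1 := hq i 0 (by omega) (by omega)
      have c2 := hq (i + 1) 0 (by omega) (by omega)
      simp only [Nat.cast_zero, add_zero] at a1 a2 b1 b2 c1 c2
      refine (seen_adj hO hsep (by omega) a1 a2 ?_ b1 b2 (by omega) (by omega)).symm
      unfold Adj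
      push_cast
      have : z.1 + (i : ℤ) - (z.1 + (i + 1)) = -1 := by ring
      rw [this]
      simp
  intro i j hi
  induction j with
  | zero =>
    intro _
    have := hx i hi
    simpa using this
  | succ j ih =>
    intro hj
    rw [← ih (by omega)]
    have a1 := hin i j hi (by omega)
    have a2 := hin i (j + 1) hi (by omega)
    have b1 := hdF i j hi (by omega)
    have b2 := hdF i (j + 1) hi (by omega)
    have c1 := hq i j hi (by omega)
    have c2 := hq i (j + 1) hi (by omega)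
    refine (seen_adj hO hsep (by omega) a1 a2 ?_ b1 b2 (by omega) (by omega)).symm
    unfold Adj
    push_cast
    have : z.2 + (j : ℤ) - (z.2 + (j + 1)) = -1 := by ring
    rw [this]
    simp

/-- `phS` is smooth -/
theorem phS_smB (hO : ∃ p, p ∉ O) (hsep : SepA O P q r1 d) (hd : 2 * e + 11 ≤ d) (hs : 16 ≤ s)
    (he : 64 ≤ e) (hes : e ≤ s) (hr : a + s + (2 * e + 20) ≤ r1) :
    SmB 4 (64 * (((e / 4 : ℕ) : ℝ))⁻¹) (67108864 / (e : ℝ) ^ 2) (phS O P q r1 a s e) := by
  classical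
  have h0 := ph0_smB (O := O) (q := q) (a := a) hs he hes
  set f0 : Pt → ℝ := fun x => cut8 O (e / 4) x * lap (GG O q a s e) x with hf0
  have hF := h0.nonneg
  intro α β hab z
  by_cases hall : ∀ i j : ℕ, i ≤ α → j ≤ β → f0 (z.1 + i, z.2 + j) = 0
  · rw [D_zero_of_stencil α β (phS O P q r1 a s e) z (fun i j hi hj => by
      unfold phS
      have := hall i j hi hj
      simp only [hf0] at this
      rw [this, ite_self]), abs_zero]
    positivity
  · push Not at hall
    obtain ⟨i0, j0, hi0, hj0, hne⟩ := hall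
    simp only [hf0] at hne
    have hcut : e / 4 < dF O (z.1 + i0, z.2 + j0) := by
      by_contra hc
      rw [cut8_zero hO (by omega) (not_lt.1 hc), zero_mul] at hne
      exact hne rfl
    have hle : dF O (z.1 + i0, z.2 + j0) ≤ 2 * e := by
      by_contra hc
      rw [lapGG_in hO (by omega) (by omega), mul_zero] at hne
      exact hne rfl
    have hqq : dn q (z.1 + i0, z.2 + j0) ≤ a + s := by
      by_contra hc
      rw [lapGG_far hs (by omega), mul_zero] at hne
      exact hne rfl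
    have hdist : ∀ i j : ℕ, i ≤ 4 → j ≤ 4 →
        dn ((z.1 + i0, z.2 + j0) : Pt) (z.1 + i, z.2 + j) ≤ 4 := by
      intro i j hi hj
      rw [dn_eq]
      simp only
      omega
    have hst := stencil_seen (O := O) (P := P) (q := q) (r1 := r1) (a := a) (s := s) (e := e)
      (z := z) hO hsep hd hr
      (fun i j hi hj => by
        have := hdist i j hi hj
        exact mem_of_lt_dF (x := (z.1 + i0, z.2 + j0)) (by omega))
      (fun i j hi hj => by
        have h1 := dF_lip hO ((z.1 + i, z.2 + j) : Pt) (z.1 + i0, z.2 + j0)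
        have := hdist i j hi hj
        rw [dn_comm] at this
        omega)
      (fun i j hi hj => by
        have h1 := dn_tri q ((z.1 + i0, z.2 + j0) : Pt) (z.1 + i, z.2 + j)
        have := hdist i j hi hj
        omega)
    have hinO : ∀ i j : ℕ, i ≤ 4 → j ≤ 4 → ((z.1 + i, z.2 + j) : Pt) ∈ O := by
      intro i j hi hj
      have := hdist i j hi hj
      exact mem_of_lt_dF (x := (z.1 + i0, z.2 + j0)) (by omega)
    by_cases hz : Seen O P q r1 (2 * e + 10) z
    · have e1 : (Dx^[α] (Dy^[β] (phS O P q r1 a s e))) z = (Dx^[α] (Dy^[β] f0)) z := by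
        have h1 := D_zero_of_stencil α β
          (fun x => phS O P q r1 a s e x + (fun y => - f0 y) x) z (fun i j hi hj => by
            have h2 := (hst i j (by omega) (by omega)).2 hz
            have h3 := hinO i j (by omega) (by omega)
            simp only
            unfold phS
            rw [if_pos ⟨h3, h2⟩]
            simp only [hf0]
            ring)
        rw [D_add, D_neg] at h1
        simp only at h1
        linarith
      rw [e1]
      exact h0 α β hab z
    · rw [D_zero_of_stencil α β (phS O P q r1 a s e) z (fun i j hi hj => by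
        unfold phS
        rw [if_neg]
        rintro ⟨_, h2⟩
        exact hz ((hst i j (by omega) (by omega)).1 h2)), abs_zero]
      positivity

end

end Vale.Agent.P155.NT426
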