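import Vale.Agent.P155.NT276.Pigeon
import Vale.Agent.P155.NT426.Flux
import Vale.Agent.P155.NT905.StepAm

/-!
# P155, NT: `T1P`, the exact form of the lower bound at the first touching
-/

namespace Vale.Agent.P155.NT426

open Finset Vale.Agent.P155 G45 G S743 NT802 NT276 J T802 H12 NT NT905

/-- the flux at the time `tU` of the excursion `k` (first touching in `box q ro`), for the side `P`
of the old boundary, for the function `H` -/
noncomputable def FxU (T : Temp) (xS : ℤ) (ω : Conf) (q : Pt) (r k ro h r1 a s e : ℕ)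
    (P : Pt → Prop) (H : Pt → ℝ) : ℝ :=
  ∑ x ∈ (oe_finite T ((tU T xS q r ro h k).toStop.E ω)).toFinset,
    wh (OE T ((tU T xS q r ro h k).toStop.E ω))
      (wS (OE T ((tE T.V xS q r k).toStop.E ω)) P q r1 a s e) x * H x

/-- **the lower bound at the first touching** (helper34) -/
def LowP : Prop :=
  ∀ (T : Temp) (xS : ℤ) (ω : Conf) (q : Pt) (r r1 ri ro h k d Dr m a s e : ℕ), ω ∈ DD T.V →
  1 ≤ r → (16 * r : ℤ) ≤ |q.1 - xS| → r ≤ ri → ro ≤ r1 → r1 + 3 ≤ 2 * r → 8 ≤ h →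
  SepN T xS ω q r k r1 d → FirstIn T xS ω q r k ri ro h →
  Dr + 16 ≤ d → 8 * h * m ^ 3 ≤ Dr → 384 ≤ Real.log m → ri + Dr + 16 ≤ a → a + 16 ≤ ro →
  16 ≤ s → 16 ≤ e →
  Real.log m / 36 ≤ FxU T xS ω q r k ro h r1 a s e
    (fun f => ¬ surr ω ((tE T.V xS q r k).toStop.L ω) f) ((tU T xS q r ro h k).toStop.Hf ω) ∨
  Real.log m / 36 ≤ FxU T xS ω q r k ro h r1 a s e
    (fun f => surr ω ((tE T.V xS q r k).toStop.L ω) f)
    (fun x => 1 - (tU T xS q r ro h k).toStop.Hf ω x)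

end Vale.Agent.P155.NT426
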