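import Vale.Agent.P155.NT426.Flux
import Vale.Agent.P155.NT814.Main

/-!
# P155, NT: the lower bound at a touching

The flux of 814's set `Uf` is at most `∑ wh O2 w H`, for every weight `w` which is at least `1` on
the old boundary faces next to the class of `f0`.
-/

namespace Vale.Agent.P155.NT426

open Finset Vale.Agent.P155 G45 G S743 NT802 NT276 J T802 H12 NT

variable {O : Set Pt} {z0 : Pt} {b Dr : ℕ} {f0 : Pt} {v : ℕ → Pt} {M : ℕ} {π : Pt → ZMod 2}
  {c : ZMod 2}

/-- all boundary faces next to the class are of one type -/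
theorem cls_side {P : Pt → Prop} {q : Pt} {r1 d : ℕ} (hsep : SepA O P q r1 d) (hf0 : f0 ∈ O)
    (hf0D : dn z0 f0 ≤ Dr) (hDd : Dr ≤ d) (hq : dn q z0 + Dr ≤ r1) {g g' : Pt}
    (hg : g ∈ Cls O z0 Dr f0) (hadj : g' ∈ nbrs g) (hg' : g' ∉ O) (hP : P g') :
    ∀ f ∈ Cls O z0 Dr f0, ∀ f' ∈ nbrs f, f' ∉ O → P f' := by
  have hS : ∀ f, f ∈ O → dn z0 f ≤ Dr → f ∈ {x | x ∈ O ∧ x ∈ box q r1 ∧ x ∈ box z0 d} := by
    intro f h1 h2
    have := dn_tri q z0 f
    exact ⟨h1, G45.mem_box.2 (by omega), G45.mem_box.2 (by omega)⟩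
  have hconn : ∀ f ∈ Cls O z0 Dr f0, Conn {x | x ∈ O ∧ x ∈ box q r1 ∧ x ∈ box z0 d} f0 f := by
    intro f hf
    refine ⟨hS f0 hf0 hf0D, ?_⟩
    refine Relation.ReflTransGen.mono (fun x y hxy => ?_) _ _ hf
    exact ⟨mem_nbrs.1 hxy.1, hS y hxy.2.1 hxy.2.2⟩
  intro f hf f' hf' hf'O
  exact (hsep z0 g f ((hconn g hg).symm.trans (hconn f hf)) g' f' hg' hf'O (mem_nbrs.1 hadj)
    (mem_nbrs.1 hf')).1 hP

/-- **the flux of `Uf` is below the functional** -/
theorem flux_le_wh (hd : RingData O z0 b Dr f0 v M π) (hbD : b ≤ Dr) {Λ : ℝ} (hΛ : 0 < Λ)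
    {N : ℕ} (hN : N ≤ Dr + 1) {O2 : Set Pt} (h2 : O2.Finite) (hsub : O2 ⊆ O)
    (hU : ∀ f ∈ O, (∀ i ≤ M, v i ∉ T802.corners f) → f ∈ O2) {w H : Pt → ℝ} (hw0 : ∀ y, 0 ≤ w y)
    (hw1 : ∀ f ∈ Cls O z0 Dr f0, ∀ f' ∈ nbrs f, dn z0 f' ≤ Dr → f' ∉ O → 1 ≤ w f')
    (h01 : ∀ x, 0 ≤ H x ∧ H x ≤ 1)
    (hH1 : ∀ f ∈ Cls O z0 Dr f0, ∀ i ≤ M, v i ∈ T802.corners f → b < dn z0 f → π f = c →
      H f = 1) :
    flux (Uf O z0 Dr f0 v M π c) (fun x => tent Λ b N (dn z0 x)) H ≤
      ∑ x ∈ h2.toFinset, wh O2 w x * H x := by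
  classical
  have hf0O : f0 ∈ O := (hd.far M le_rfl f0 hd.f0 ((hd.tip f0 hd.f0).trans hbD)).1
  have hf0D : dn z0 f0 ≤ Dr := (hd.tip f0 hd.f0).trans hbD
  have hmem : ∀ f, f ∈ Uf O z0 Dr f0 v M π c ↔
    f ∈ Cls O z0 Dr f0 ∧ (∀ i ≤ M, v i ∉ T802.corners f) ∧ π f = c := fun f => mem_Uf hf0O hf0D
  set U := Uf O z0 Dr f0 v M π c with hUdef
  have hUO2 : ∀ x ∈ U, x ∈ O2 := by
    intro x hx
    obtain ⟨h3, h4, _⟩ := (hmem x).1 hx
    exact hU x (cls_mem hf0O hf0D h3).1 h4
  have hsubU : U ⊆ h2.toFinset := fun x hx => by simpa using hUO2 x hx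
  have hg0 : ∀ y, 0 ≤ tent Λ b N (dn z0 y) := fun y => tent_nonneg hΛ _ _ _
  have hg1 : ∀ y, tent Λ b N (dn z0 y) ^ 2 ≤ 1 := fun y =>
    pow_le_one₀ (hg0 y) (tent_le_one _ _ _ _)
  calc flux U (fun x => tent Λ b N (dn z0 x)) H
      ≤ ∑ x ∈ U, wh O2 w x * H x := by
        unfold flux
        apply sum_le_sum
        intro x hx
        obtain ⟨hxc, hxv, hxπ⟩ := (hmem x).1 hx
        have hxO := cls_mem hf0O hf0D hxc
        unfold wh
        rw [sum_mul]
        have key : ∀ y ∈ (nbrs x).filter (fun y => y ∉ U), tent Λ b N (dn z0 y) ^ 2 *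
            ((1 - H y) * H x) ≤ if y ∉ O2 then w y * H x else 0 := by
          intro y hy
          obtain ⟨hy1, hy2⟩ := mem_filter.1 hy
          have hHx := (h01 x).1
          have hHy := h01 y
          by_cases hyO : y ∈ O
          · have hz : tent Λ b N (dn z0 y) ^ 2 * ((1 - H y) * H x) = 0 := by
              by_cases hb : dn z0 y ≤ b
              · rw [tent_zero_left hΛ hb]; ring
              by_cases hb2 : N ≤ dn z0 y
              · rw [tent_zero_right hΛ hb2]; ring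
              have hyD : dn z0 y ≤ Dr := by omega
              have hyc : y ∈ Cls O z0 Dr f0 := cls_step hxc hy1 hyO hyD
              have hyπ : π y = c := by
                by_contra hne
                have hxb : b ≤ dn z0 x := by
                  have := dn_nbr (z := z0) hy1
                  omega
                have h5 := (hd.par x y hy1 hxO.1 hyO hxb hxO.2 (by omega) hyD).1
                  (fun h => hne (h ▸ hxπ))
                obtain ⟨i, hi, h6, _⟩ := h5
                exact hxv i hi.le h6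
              have hex : ∃ i ≤ M, v i ∈ T802.corners y := by
                by_contra hc
                push Not at hc
                exact hy2 ((hmem y).2 ⟨hyc, hc, hyπ⟩)
              obtain ⟨i, hi, h6⟩ := hex
              rw [hH1 y hyc i hi h6 (by omega) hyπ]
              ring
            rw [hz]
            split_ifs
            · exact le_rfl
            · exact mul_nonneg (hw0 y) hHx
          · rw [if_pos (fun h => hyO (hsub h))]
            by_cases hyD : dn z0 y ≤ Dr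
            · have hw := hw1 x hxc y hy1 hyD hyO
              have h7 : tent Λ b N (dn z0 y) ^ 2 * ((1 - H y) * H x) ≤ 1 * (1 * H x) := by
                apply mul_le_mul (hg1 y) _ _ zero_le_one
                · exact mul_le_mul_of_nonneg_right (by linarith) hHx
                · exact mul_nonneg (by linarith) hHx
              refine h7.trans ?_
              rw [one_mul]
              exact mul_le_mul_of_nonneg_right hw hHx
            · rw [tent_zero_right hΛ (by omega)]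
              have := mul_nonneg (hw0 y) hHx
              simpa using this
        refine (sum_le_sum key).trans ?_
        rw [← sum_filter, filter_filter]
        have e1 : (nbrs x).filter (fun a => a ∉ U ∧ a ∉ O2) = (nbrs x).filter (fun a => a ∉ O2) := by
          apply filter_congr
          intro y _
          constructor
          · exact fun h => h.2
          · exact fun h => ⟨fun h' => h (hUO2 y h'), h⟩
        rw [e1]
    _ ≤ ∑ x ∈ h2.toFinset, wh O2 w x * H x := by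
        apply sum_le_sum_of_subset_of_nonneg hsubU
        intro x _ _
        exact mul_nonneg (wh_nonneg hw0 x) (h01 x).1

/-- **the lower bound at a touching** (`H` = the harmonic function which vanishes on the side `P`) -/
theorem low_touch {P : Pt → Prop} {q : Pt} {r1 d a s e : ℕ} (hsep : SepA O P q r1 d)
    (hDd : Dr ≤ d) (hq1 : dn q z0 + Dr ≤ r1) (hqa : dn q z0 + Dr ≤ a) (hs : 16 ≤ s) (he : 16 ≤ e)
    (hd : RingData O z0 b Dr f0 v M π) {m : ℕ} (hb : 1 ≤ b) (hm : 384 ≤ Real.log m)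
    (hbD : b * m ^ 3 ≤ Dr + 1) {O2 : Set Pt} (h2 : O2.Finite) (hsub : O2 ⊆ O)
    (hU : ∀ f ∈ O, (∀ i ≤ M, v i ∉ T802.corners f) → f ∈ O2) {H : Pt → ℝ}
    {g g' : Pt} (hg : g ∈ Cls O z0 Dr f0) (hadj : g' ∈ nbrs g) (hg' : g' ∉ O) (hP : P g')
    (h01 : ∀ x, 0 ≤ H x ∧ H x ≤ 1) (hH : ∀ x ∈ O2, lap H x = 0)
    (hHb : ∀ y, y ∉ O → P y → H y = 0)
    (hH1 : ∀ f ∈ Cls O z0 Dr f0, ∀ i ≤ M, v i ∈ T802.corners f → b < dn z0 f → π f = c →
      H f = 1) :
    Real.log m / 36 ≤ ∑ x ∈ h2.toFinset, wh O2 (wS O P q r1 a s e) x * H x := by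
  classical
  have hm2 : 2 ≤ m := by
    by_contra hc
    have : m = 0 ∨ m = 1 := by omega
    rcases this with h | h <;> rw [h] at hm <;> norm_num at hm
  have k0 : b * 2 ≤ b * m := Nat.mul_le_mul_left b hm2
  have k1 : b * m ≤ b * m ^ 2 := Nat.mul_le_mul_left b (by nlinarith)
  have k2 : b * m ^ 2 * 2 ≤ b * m ^ 3 := by
    have : b * m ^ 3 = b * m ^ 2 * m := by ring
    rw [this]
    exact Nat.mul_le_mul_left _ hm2
  have hbD' : b ≤ Dr := by omega
  have hf0O : f0 ∈ O := (hd.far M le_rfl f0 hd.f0 ((hd.tip f0 hd.f0).trans hbD')).1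
  have hf0D : dn z0 f0 ≤ Dr := (hd.tip f0 hd.f0).trans hbD'
  have hside := cls_side hsep hf0O hf0D hDd hq1 hg hadj hg' hP
  have hUO2 : ∀ x ∈ Uf O z0 Dr f0 v M π c, x ∈ O2 := by
    intro x hx
    obtain ⟨h3, h4, _⟩ := (mem_Uf hf0O hf0D).1 hx
    exact hU x (cls_mem hf0O hf0D h3).1 h4
  refine (flux_touch (c := c) hb hm hd hbD h01 ?_ ?_ hH1).trans
    (flux_le_wh hd hbD' (by linarith) hbD h2 hsub hU (fun y => wS_nonneg he y) ?_ h01 hH1)
  · intro x hx
    have := hH x (hUO2 x hx)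
    unfold HarmAt
    rw [← lap_sum]
    exact this
  · intro f hf f' hf' _ hf'O
    exact hHb f' hf'O (hside f hf f' hf' hf'O)
  · intro f hf f' hf' hf'D hf'O
    rw [wS_bd he hf'O, if_pos (hside f hf f' hf' hf'O), plat_one hs (by
      have := dn_tri q z0 f'
      omega)]

end Vale.Agent.P155.NT426
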