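import Vale.Agent.P155.G45.Cut
import Vale.Agent.P155.S743.Bump

/-!
# P155, NT, block C: smooth functions of order 8 (cut-offs, products, Laplacian)
-/

namespace Vale.Agent.P155.NT426

open Finset Vale.Agent.P155 G45 G S743

/-- all differences of order `≤ n` are bounded by `F τ ^ order` -/
def SmB (n : ℕ) (τ F : ℝ) (f : Pt → ℝ) : Prop :=
  ∀ a b : ℕ, a + b ≤ n → ∀ z, |(Dx^[a] (Dy^[b] f)) z| ≤ F * τ ^ (a + b)

theorem SmB.abs {n : ℕ} {τ F : ℝ} {f : Pt → ℝ} (h : SmB n τ F f) (z : Pt) : |f z| ≤ F := by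
  simpa using h 0 0 (by omega) z

theorem SmB.nonneg {n : ℕ} {τ F : ℝ} {f : Pt → ℝ} (h : SmB n τ F f) : 0 ≤ F :=
  (abs_nonneg _).trans (h.abs (0, 0))

theorem SmB.low {n n' : ℕ} {τ F : ℝ} {f : Pt → ℝ} (h : SmB n τ F f) (hn : n' ≤ n) :
    SmB n' τ F f := fun a b hab z => h a b (hab.trans hn) z

theorem SmB.mono {n : ℕ} {τ τ' F F' : ℝ} {f : Pt → ℝ} (h : SmB n τ F f) (hτ : 0 ≤ τ)
    (hτ' : τ ≤ τ') (hF : F ≤ F') : SmB n τ' F' f := by
  intro a b hab z
  have h0 := h.nonneg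
  refine (h a b hab z).trans ?_
  have h1 : τ ^ (a + b) ≤ τ' ^ (a + b) := pow_le_pow_left₀ hτ hτ' _
  exact mul_le_mul hF h1 (by positivity) (h0.trans hF)

theorem SmB.mul {n : ℕ} {τ F G : ℝ} {f g : Pt → ℝ} (hτ : 0 ≤ τ) (hf : SmB n τ F f)
    (hg : SmB n τ G g) : SmB n τ (2 ^ n * (F * G)) (fun z => f z * g z) := by
  intro a b hab z
  have hF := hf.nonneg
  have hG := hg.nonneg
  refine (leibniz n f g F G τ z (fun a b h => hf a b h z)
    (fun a b i j h => hg a b (by omega) _) a b hab).trans ?_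
  have h1 : (2 : ℝ) ^ (a + b) ≤ 2 ^ n := pow_le_pow_right₀ (by norm_num) hab
  gcongr

theorem D_const (c : ℝ) (a b : ℕ) (z : Pt) :
    (Dx^[a] (Dy^[b] (fun _ => c))) z = if a + b = 0 then c else 0 := by
  have h1 : ∀ b, 0 < b → Dy^[b] (fun _ : Pt => c) = fun _ => 0 := by
    intro b hb
    obtain ⟨b, rfl⟩ := Nat.exists_eq_succ_of_ne_zero hb.ne'
    rw [Function.iterate_succ_apply]
    have : Dy (fun _ : Pt => c) = fun _ => 0 := by funext z; unfold Dy; ring
    rw [this]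
    induction b with
    | zero => rfl
    | succ b ih =>
      rw [Function.iterate_succ_apply]
      have : Dy (fun _ : Pt => (0 : ℝ)) = fun _ => 0 := by funext z; unfold Dy; ring
      rw [this]
      exact ih (Nat.succ_pos _)
  have h2 : ∀ c : ℝ, ∀ a, 0 < a → Dx^[a] (fun _ : Pt => c) = fun _ => 0 := by
    intro c a ha
    obtain ⟨a, rfl⟩ := Nat.exists_eq_succ_of_ne_zero ha.ne'
    rw [Function.iterate_succ_apply]
    have : Dx (fun _ : Pt => c) = fun _ => 0 := by funext z; unfold Dx; ring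
    rw [this]
    clear this ha
    induction a with
    | zero => rfl
    | succ a ih =>
      rw [Function.iterate_succ_apply]
      have : Dx (fun _ : Pt => (0 : ℝ)) = fun _ => 0 := by funext z; unfold Dx; ring
      rw [this]
      exact ih
  rcases Nat.eq_zero_or_pos b with hb | hb
  · subst hb
    rcases Nat.eq_zero_or_pos a with ha | ha
    · subst ha; simp
    · rw [Function.iterate_zero, id, h2 c a ha, if_neg (by omega)]
  · rw [h1 b hb, if_neg (by omega)]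
    rcases Nat.eq_zero_or_pos a with ha | ha
    · subst ha; simp
    · rw [h2 0 a ha]

theorem SmB.one_sub {n : ℕ} {τ F : ℝ} {f : Pt → ℝ} (hτ : 0 ≤ τ) (h : SmB n τ F f) :
    SmB n τ (F + 1) (fun z => 1 - f z) := by
  intro a b hab z
  have hF := h.nonneg
  have e : (fun z => 1 - f z) = fun z => (fun _ => (1 : ℝ)) z + (fun z => - f z) z := by
    funext z; ring
  rw [e, D_add, D_neg]
  simp only
  rw [D_const]
  have h1 := h a b hab z
  rw [← sub_eq_add_neg]
  refine (abs_sub _ _).trans ?_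
  by_cases h0 : a + b = 0
  · rw [if_pos h0, abs_one, h0, pow_zero]
    rw [h0, pow_zero] at h1
    linarith
  · rw [if_neg h0, abs_zero, zero_add]
    refine h1.trans ?_
    apply mul_le_mul_of_nonneg_right (by linarith) (by positivity)

theorem SmB.shift {n : ℕ} {τ F : ℝ} {f : Pt → ℝ} (h : SmB n τ F f) (p : Pt) :
    SmB n τ F (fun x => f (x.1 - p.1, x.2 - p.2)) := by
  intro a b hab z
  rw [D_shift]
  exact h a b hab _

theorem Dxx_eq (f : Pt → ℝ) (z : Pt) : Dx (Dx f) (z.1 - 1, z.2) =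
    f (z.1 + 1, z.2) + f (z.1 - 1, z.2) - 2 * f z := by
  unfold Dx
  simp only [sub_add_cancel]
  ring

theorem Dyy_eq (f : Pt → ℝ) (z : Pt) : Dy (Dy f) (z.1, z.2 - 1) =
    f (z.1, z.2 + 1) + f (z.1, z.2 - 1) - 2 * f z := by
  unfold Dy
  simp only [sub_add_cancel]
  ring

theorem D_lap (f : Pt → ℝ) (a b : ℕ) (z : Pt) : (Dx^[a] (Dy^[b] (lap f))) z =
    (Dx^[a + 2] (Dy^[b] f)) (z.1 - 1, z.2) + (Dx^[a] (Dy^[b + 2] f)) (z.1, z.2 - 1) := by
  have e : lap f = fun z => (fun x : Pt => (Dx (Dx f)) (x.1 - (1, 0).1, x.2 - (1, 0).2)) z +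
      (fun x : Pt => (Dy (Dy f)) (x.1 - (0, 1).1, x.2 - (0, 1).2)) z := by
    funext z
    simp only [sub_zero]
    rw [Dxx_eq, Dyy_eq]
    unfold lap
    ring
  rw [e, D_add, D_shift _ ((1, 0) : Pt), D_shift _ ((0, 1) : Pt)]
  simp only [sub_zero]
  have hc : ∀ (b : ℕ) (g : Pt → ℝ), Dy^[b] (Dx g) = Dx (Dy^[b] g) := by
    intro b
    induction b with
    | zero => intro g; rfl
    | succ b ih =>
      intro g
      rw [Function.iterate_succ_apply, Function.iterate_succ_apply]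
      have : Dy (Dx g) = Dx (Dy g) := by
        funext z; unfold Dx Dy; ring
      rw [this, ih]
  rw [hc, hc, Function.iterate_add_apply, Function.iterate_add_apply]
  rfl

theorem SmB.lap {n : ℕ} {τ F : ℝ} {f : Pt → ℝ} (h : SmB (n + 2) τ F f) :
    SmB n τ (2 * F * τ ^ 2) (Vale.Agent.P155.lap f) := by
  intro a b hab z
  rw [D_lap]
  have h1 := h (a + 2) b (by omega) (z.1 - 1, z.2)
  have h2 := h a (b + 2) (by omega) (z.1, z.2 - 1)
  refine (abs_add_le _ _).trans ((add_le_add h1 h2).trans (le_of_eq ?_))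
  rw [show a + 2 + b = a + b + 2 by omega, show a + (b + 2) = a + b + 2 by omega, pow_add]
  ring

/-! ## smoothing of order 8 -/

theorem Dx_AvY_comm (m : ℕ) (f : Pt → ℝ) : Dx (AvY m f) = AvY m (Dx f) := by
  funext z
  unfold Dx AvY
  simp only
  rw [← mul_sub, ← Finset.sum_sub_distrib]

theorem D_Av (m : ℕ) (f : Pt → ℝ) (a b : ℕ) :
    Dx^[a] (Dy^[b] (Av m f)) = Av m (Dx^[a] (Dy^[b] f)) := by
  have h1 : ∀ (n : ℕ) (f : Pt → ℝ), Dx ((AvY m)^[n] f) = (AvY m)^[n] (Dx f) := by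
    intro n
    induction n with
    | zero => intro f; rfl
    | succ n ih =>
      intro f
      rw [Function.iterate_succ_apply, Function.iterate_succ_apply, ih, Dx_AvY_comm]
  have hx : ∀ f : Pt → ℝ, Dx (Av m f) = Av m (Dx f) := by
    intro f
    unfold Av
    rw [Dx_AvX_iter_comm, h1]
  have hy : ∀ f : Pt → ℝ, Dy (Av m f) = Av m (Dy f) := by
    intro f
    unfold Av
    rw [Dy_AvX_iter_comm, Dy_AvY_iter_comm]
  have hy' : ∀ (b : ℕ) (f : Pt → ℝ), Dy^[b] (Av m f) = Av m (Dy^[b] f) := by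
    intro b
    induction b with
    | zero => intro f; rfl
    | succ b ih =>
      intro f
      rw [Function.iterate_succ_apply, hy, ih, Function.iterate_succ_apply]
  have hx' : ∀ (a : ℕ) (f : Pt → ℝ), Dx^[a] (Av m f) = Av m (Dx^[a] f) := by
    intro b
    induction b with
    | zero => intro f; rfl
    | succ b ih =>
      intro f
      rw [Function.iterate_succ_apply, hx, ih, Function.iterate_succ_apply]
  rw [hy', hx']

theorem DxDy_comm (a b : ℕ) (g : Pt → ℝ) : Dy^[b] (Dx^[a] g) = Dx^[a] (Dy^[b] g) := by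
  have hc : ∀ (b : ℕ) (g : Pt → ℝ), Dy^[b] (Dx g) = Dx (Dy^[b] g) := by
    intro b
    induction b with
    | zero => intro g; rfl
    | succ b ih =>
      intro g
      rw [Function.iterate_succ_apply, Function.iterate_succ_apply]
      have : Dy (Dx g) = Dx (Dy g) := by
        funext z; unfold Dx Dy; ring
      rw [this, ih]
  induction a generalizing g with
  | zero => rfl
  | succ a ih =>
    rw [Function.iterate_succ_apply, ih, hc, Function.iterate_succ_apply]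

/-- the smoothing operator of order 8 -/
noncomputable def Av2 (m : ℕ) (f : Pt → ℝ) : Pt → ℝ := Av m (Av m f)

theorem Av2_smB {m : ℕ} (hm : 1 ≤ m) {f : Pt → ℝ} {M : ℝ} (hf : ∀ z, |f z| ≤ M) :
    SmB 8 (2 / m) M (Av2 m f) := by
  intro a b hab z
  have key : ∀ a1 b1 a2 b2 : ℕ, a1 ≤ 4 → b1 ≤ 4 → a2 ≤ 4 → b2 ≤ 4 →
      |(Dx^[a2 + a1] (Dy^[b2 + b1] (Av2 m f))) z| ≤ (2 / m) ^ (a1 + b1 + (a2 + b2)) * M := by
    intro a1 b1 a2 b2 h1 h2 h3 h4
    have e : Dx^[a2 + a1] (Dy^[b2 + b1] (Av2 m f)) =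
        Dx^[a2] (Dy^[b2] (Av m (Dx^[a1] (Dy^[b1] (Av m f))))) := by
      unfold Av2
      rw [Function.iterate_add_apply, Function.iterate_add_apply Dy, ← DxDy_comm a1 b2, D_Av m _ a1 b1]
    rw [e]
    have h5 := Av_diff_bound hm hf a1 b1 h1 h2
    have h6 := Av_diff_bound hm h5 a2 b2 h3 h4 z
    refine h6.trans (le_of_eq ?_)
    rw [pow_add (2 / (m : ℝ)) (a1 + b1) (a2 + b2)]
    ring
  have h := key (min a 4) (min b 4) (a - min a 4) (b - min b 4) (by omega) (by omega) (by omega)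
    (by omega)
  rw [show a - min a 4 + min a 4 = a by omega, show b - min b 4 + min b 4 = b by omega,
    show min a 4 + min b 4 + (a - min a 4 + (b - min b 4)) = a + b by omega] at h
  rw [mul_comm]
  exact h

theorem Av2_eq_const {m : ℕ} (hm : 1 ≤ m) {f : Pt → ℝ} {z : Pt} {c : ℝ}
    (h : ∀ i j : ℕ, i ≤ 8 * (m - 1) → j ≤ 8 * (m - 1) → f (z.1 + i, z.2 + j) = c) :
    Av2 m f z = c := by
  unfold Av2
  apply Av_eq_const hm
  intro i j hi hj
  apply Av_eq_const hm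
  intro i' j' hi' hj'
  have := h (i + i') (j + j') (by omega) (by omega)
  push_cast at this
  simp only
  rw [← this]
  congr 2 <;> ring

theorem Av2_nonneg {m : ℕ} {f : Pt → ℝ} (hf : ∀ z, 0 ≤ f z) (z : Pt) : 0 ≤ Av2 m f z :=
  Av_nonneg (Av_nonneg hf) z

theorem Av2_le_one {m : ℕ} (hm : 1 ≤ m) {f : Pt → ℝ} (hf : ∀ z, f z ≤ 1) (z : Pt) :
    Av2 m f z ≤ 1 := Av_le_one hm (Av_le_one hm hf) z

open Classical in
/-- cut-off at scale `s`: zero at distance `≤ s`, one at distance `≥ 2s` -/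
noncomputable def cut8 (O : Set Pt) (s : ℕ) : Pt → ℝ :=
  Av2 (s / 16) (fun z => if s + 8 * (s / 16) < dF O z then 1 else 0)

theorem cut8_nonneg (O : Set Pt) (s : ℕ) (x : Pt) : 0 ≤ cut8 O s x := by
  unfold cut8
  apply Av2_nonneg
  intro z
  split_ifs <;> norm_num

theorem cut8_le_one (O : Set Pt) {s : ℕ} (hs : 16 ≤ s) (x : Pt) : cut8 O s x ≤ 1 := by
  unfold cut8
  apply Av2_le_one (by omega)
  intro z
  split_ifs <;> norm_num

theorem cut8_zero {O : Set Pt} (hO : ∃ q, q ∉ O) {s : ℕ} (hs : 16 ≤ s) {x : Pt}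
    (hx : dF O x ≤ s) : cut8 O s x = 0 := by
  unfold cut8
  apply Av2_eq_const (by omega)
  intro i j hi hj
  have h1 := dF_lip hO (x.1 + i, x.2 + j) x
  have h2 : dn (x.1 + (i : ℤ), x.2 + (j : ℤ)) x ≤ 8 * (s / 16 - 1) := by
    rw [dn_eq]; simp only; omega
  rw [if_neg]
  omega

theorem cut8_one {O : Set Pt} (hO : ∃ q, q ∉ O) {s : ℕ} (hs : 16 ≤ s) {x : Pt}
    (hx : 2 * s ≤ dF O x) : cut8 O s x = 1 := by
  unfold cut8
  apply Av2_eq_const (by omega)
  intro i j hi hj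
  have h1 := dF_lip hO x (x.1 + i, x.2 + j)
  have h2 : dn x (x.1 + (i : ℤ), x.2 + (j : ℤ)) ≤ 8 * (s / 16 - 1) := by
    rw [dn_eq]; simp only; omega
  rw [if_pos]
  omega

theorem two_div_le {s : ℕ} (hs : 16 ≤ s) : 2 / ((s / 16 : ℕ) : ℝ) ≤ 64 * (s : ℝ)⁻¹ := by
  have hs0 : (0 : ℝ) < s := by
    have : 0 < s := by omega
    exact_mod_cast this
  have hm' : (s : ℝ) / 32 ≤ ((s / 16 : ℕ) : ℝ) := by
    have : s ≤ 32 * (s / 16) := by omega
    have h3 : (s : ℝ) ≤ 32 * ((s / 16 : ℕ) : ℝ) := by exact_mod_cast this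
    linarith
  calc 2 / ((s / 16 : ℕ) : ℝ) ≤ 2 / ((s : ℝ) / 32) := by
        apply div_le_div_of_nonneg_left (by norm_num) (by positivity) hm'
    _ = 64 * (s : ℝ)⁻¹ := by field_simp; norm_num

theorem cut8_smB (O : Set Pt) {s : ℕ} (hs : 16 ≤ s) : SmB 8 (64 * (s : ℝ)⁻¹) 1 (cut8 O s) := by
  have h1 := Av2_smB (m := s / 16) (by omega)
    (f := fun z => if s + 8 * (s / 16) < dF O z then (1 : ℝ) else 0)
    (M := 1) (fun z => by
      by_cases hc : s + 8 * (s / 16) < dF O z <;> simp [hc])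
  have h2 := h1.mono (by positivity) (two_div_le hs) le_rfl
  have e : cut8 O s = Av2 (s / 16)
      (fun z => if s + 8 * (s / 16) < dF O z then (1 : ℝ) else 0) := by
    unfold cut8
    congr 1
  rw [e]
  exact h2

/-- plateau: `1` on `box q a`, `0` outside `box q (a + s)` -/
noncomputable def plat (q : Pt) (a s : ℕ) : Pt → ℝ :=
  Av2 (s / 16) (fun z => if dn q z ≤ a + 8 * (s / 16) then 1 else 0)

theorem plat_nonneg (q : Pt) (a s : ℕ) (x : Pt) : 0 ≤ plat q a s x := by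
  unfold plat
  apply Av2_nonneg
  intro z
  split_ifs <;> norm_num

theorem plat_le_one (q : Pt) (a : ℕ) {s : ℕ} (hs : 16 ≤ s) (x : Pt) : plat q a s x ≤ 1 := by
  unfold plat
  apply Av2_le_one (by omega)
  intro z
  split_ifs <;> norm_num

theorem plat_one {q : Pt} {a s : ℕ} (hs : 16 ≤ s) {x : Pt} (hx : dn q x ≤ a) :
    plat q a s x = 1 := by
  unfold plat
  apply Av2_eq_const (by omega)
  intro i j hi hj
  have h1 := dn_tri q x (x.1 + (i : ℤ), x.2 + (j : ℤ))
  have h2 : dn x (x.1 + (i : ℤ), x.2 + (j : ℤ)) ≤ 8 * (s / 16 - 1) := by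
    rw [dn_eq]; simp only; omega
  rw [if_pos]
  omega

theorem plat_zero {q : Pt} {a s : ℕ} (hs : 16 ≤ s) {x : Pt} (hx : a + s ≤ dn q x) :
    plat q a s x = 0 := by
  unfold plat
  apply Av2_eq_const (by omega)
  intro i j hi hj
  have h1 := dn_tri q (x.1 + (i : ℤ), x.2 + (j : ℤ)) x
  have h2 : dn (x.1 + (i : ℤ), x.2 + (j : ℤ)) x ≤ 8 * (s / 16 - 1) := by
    rw [dn_eq]; simp only; omega
  rw [if_neg]
  omega

theorem plat_smB (q : Pt) (a : ℕ) {s : ℕ} (hs : 16 ≤ s) :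
    SmB 8 (64 * (s : ℝ)⁻¹) 1 (plat q a s) := by
  have h1 := Av2_smB (m := s / 16) (by omega)
    (f := fun z => if dn q z ≤ a + 8 * (s / 16) then (1 : ℝ) else 0)
    (M := 1) (fun z => by
      by_cases hc : dn q z ≤ a + 8 * (s / 16) <;> simp [hc])
  exact h1.mono (by positivity) (two_div_le hs) le_rfl

end Vale.Agent.P155.NT426
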