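import Vale.Agent.P155.NT426.T1b

/-!
# P155, NT: `T1P`
-/

namespace Vale.Agent.P155.NT426

open Finset Vale.Agent.P155 G45 G S743 NT802 NT276 J T802 H12 NT NT905 T905 NT743 NT211

section

variable {T : Temp} {xS : ℤ} {ω : Conf} {q : Pt} {r k r1 d a s e : ℕ}

/-- the touching time is the first touching -/
theorem tU_eq {ri ro h n : ℕ} (hri : ri ≤ ro) (h1 : eN T xS ω q r k ≤ n)
    (h2 : n < xN T xS ω q r k) (h3 : gN T xS ω n ∈ box q ri) (h4 : Near T xS ω q r k h n)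
    (h5 : ∀ m, eN T xS ω q r k ≤ m → m < n → ¬ (gN T xS ω m ∈ box q ro ∧ Near T xS ω q r k h m)) :
    (tU T xS q r ro h k).N ω = n := by
  have e0 : (tU T xS q r ro h k).N ω = NT802.fst (xN T xS ω q r k)
      (fun n => gN T xS ω n ∈ box q ro ∧ Near T xS ω q r k h n) (eN T xS ω q r k) :=
    Tm.uT_N _ _ _ _ _ _ _ _ _
  rw [e0]
  apply le_antisymm
  · refine fst_min h1 (Or.inl ⟨?_, h4⟩)
    rw [G45.mem_box] at h3 ⊢
    omega
  · by_contra hc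
    obtain ⟨h6, h7⟩ := fst_mem (xN T xS ω q r k)
      (fun n => gN T xS ω n ∈ box q ro ∧ Near T xS ω q r k h n) (eN T xS ω q r k)
    rcases h7 with h7 | h7
    · exact h5 _ h6 (not_le.1 hc) h7
    · omega

/-- **the lower bound** on the event of `T1P` -/
theorem low_ev (hω : ω ∈ DD T.V) (hr : 1 ≤ r) (hx : (16 * r : ℤ) ≤ |q.1 - xS|)
    (hr1 : r1 + 3 ≤ 2 * r) {ri ro h Dr m : ℕ} (hsep : SepN T xS ω q r k r1 d)
    (hF : FirstIn T xS ω q r k ri ro h) (hh : 3 ≤ h) (hro : ri + Dr + 1 ≤ ro) (hro1 : ro ≤ r1)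
    (hDd : Dr ≤ d) (ha : ri + Dr ≤ a) (hs : 16 ≤ s) (he : 16 ≤ e) (hm : 384 ≤ Real.log m)
    (hbm : 2 * h * m ^ 3 ≤ Dr + 1) :
    DomN T xS q r k r1 d ω ∧ ∃ b, Real.log m / 36 ≤ Fb T xS q r k ro h r1 a s e b ω := by
  obtain ⟨n, h1, h2, h3, h4, h5⟩ := hF
  have hxM : xN T xS ω q r k ≤ Tm.M T.V xS ω := exi_le _
  have hk : (tE T.V xS q r k).N ω < Tm.M T.V xS ω := by
    rw [tE_eN]
    omega
  have hD : DomN T xS q r k r1 d ω := (domN_iff hω hr hx).2 ⟨hk, hsep⟩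
  refine ⟨hD, ?_⟩
  have hN := hD.2.1
  have hn := tU_eq (by omega : ri ≤ ro) h1 h2 h3 h4 h5
  subst hn
  have hL1 : (tE T.V xS q r k).toStop.L ω =
      LK xS ω (Tm.tm T.V xS ω) (Tm.M T.V xS ω) q r k := by
    unfold Stop.L LK
    rw [Tm.GTime.toStop_t, tE_N]
  have hL2 : (tU T xS q r ro h k).toStop.L ω =
      LK xS ω (Tm.tm T.V xS ω) (Tm.M T.V xS ω) q r k := by
    rw [(tU_facts hω hr hx hk).2.2, hL1]
  have hO1 : OE T ((tE T.V xS q r k).toStop.E ω) = ON T xS ω q r k := by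
    rw [Tm.GTime.toStop_E, tE_N]
    rfl
  have hbd : ∀ f, f ∉ OE T ((tU T xS q r ro h k).toStop.E ω) →
      (tU T xS q r ro h k).toStop.Hf ω f = (tU T xS q r ro h k).toStop.bd ω f :=
    ((tU T xS q r ro h k).toStop.Hf_spec ω).2
  have hlow := NT34.low_walk (a := a) (s := s) (e' := e) (b := 2 * h)
    (H := (tU T xS q r ro h k).toStop.Hf ω) hω hr hx hr1 hsep h1 h2 h3 h4 h5 hh (by omega) hro hro1
    hDd ha hs he hm hbm (oe_finite T _)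
    (fun x => ⟨((tU T xS q r ro h k).toStop.Hf_spec ω).nonneg x,
      ((tU T xS q r ro h k).toStop.Hf_spec ω).le_one x⟩)
    (fun f hf => ((tU T xS q r ro h k).toStop.Hf_spec ω).1 f hf)
    (fun f hf hs => by
      have h6 := hbd f hf
      unfold Stop.bd at h6
      rw [hL2, if_pos hs] at h6
      exact h6)
    (fun f hf hs => by
      have h6 := hbd f hf
      unfold Stop.bd at h6
      rw [hL2, if_neg hs] at h6
      exact h6)
  have hw : ∀ b, wS (OE T ((tE T.V xS q r k).toStop.E ω)) (SideP T xS q r k b ω) q r1 a s e =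
      wS (ON T xS ω q r k) (fun f => QQt b (surr ω
        (LK xS ω (Tm.tm T.V xS ω) (Tm.M T.V xS ω) q r k) f)) q r1 a s e := by
    intro b
    rw [wS_congr (P' := fun f => QQt b (surr ω ((tE T.V xS q r k).toStop.L ω) f))
      (fun f hf => side_iff hN b hf), hL1, hO1]
  rcases hlow with h6 | h6
  · refine ⟨false, h6.trans (le_of_eq ?_)⟩
    unfold Fb FxU
    rw [hw false]
    rfl
  · refine ⟨true, h6.trans (le_of_eq ?_)⟩
    unfold Fb FxU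
    rw [hw true]
    rfl

end

/-- numerics -/
theorem floor_ge {x : ℝ} {R : ℕ} (hx : 0 < x) (h : 2 / x ≤ R) : x / 2 * R ≤ (⌊x * R⌋₊ : ℕ) := by
  have h1 := Nat.lt_floor_add_one (x * R)
  rw [div_le_iff₀ hx] at h
  linarith

/-- the scales -/
theorem scales {c δ d ζ θ η : ℝ} {R r r1 ri ro m : ℕ} (hθ0 : 0 < θ) (hη : 0 < η) (hθd : 8 * θ ≤ d)
    (hθδ : 8 * θ ≤ δ) (hθζ : 8 * θ ≤ ζ) (hηm : 2 * (m : ℝ) ^ 3 * η ≤ θ) (hηθ : 2 * η ≤ θ)
    (g1 : 2 / θ ≤ R) (k2 : 1000 ≤ η * R) (k3 : 1 ≤ c * R) (hcr : c * R ≤ r)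
    (hri : (ri : ℝ) + ζ * R ≤ ro) (hro : (ro : ℝ) + δ * R ≤ r1) :
    1 ≤ r ∧ θ / 2 * R ≤ (⌊θ * R⌋₊ : ℕ) ∧ 2 * ⌊θ * R⌋₊ + 11 ≤ ⌊d * R⌋₊ ∧ 64 ≤ ⌊η / 4 * R⌋₊ ∧
      ⌊η / 4 * R⌋₊ ≤ ⌊θ * R⌋₊ ∧ 2 * ⌊η / 4 * R⌋₊ + 2 ≤ ⌊η * R⌋₊ ∧
      ri + ⌊θ * R⌋₊ + ⌊θ * R⌋₊ + 3 ≤ ro ∧
      ri + ⌊θ * R⌋₊ + ⌊θ * R⌋₊ + (2 * ⌊θ * R⌋₊ + 20) ≤ r1 ∧ ro ≤ r1 ∧
      2 * ⌊η * R⌋₊ * m ^ 3 ≤ ⌊θ * R⌋₊ + 1 ∧ η / 8 * R ≤ (⌊η / 4 * R⌋₊ : ℕ) := by
  have hR0 : (0 : ℝ) ≤ R := Nat.cast_nonneg R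
  have kθ : 2 * (η * R) ≤ θ * R := by nlinarith
  have hηR : 0 ≤ η * R := by positivity
  have hdR : 8 * (θ * R) ≤ d * R := by nlinarith
  have hζR : 8 * (θ * R) ≤ ζ * R := by nlinarith
  have hδR : 8 * (θ * R) ≤ δ * R := by nlinarith
  have hD3 : θ / 2 * R ≤ (⌊θ * R⌋₊ : ℕ) := floor_ge hθ0 g1
  have hD1 : (⌊θ * R⌋₊ : ℝ) ≤ θ * R := Nat.floor_le (by positivity)
  have hD2 : θ * R < ⌊θ * R⌋₊ + 1 := Nat.lt_floor_add_one _
  have hh1 : (⌊η * R⌋₊ : ℝ) ≤ η * R := Nat.floor_le (by positivity)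
  have hh2 : η * R < ⌊η * R⌋₊ + 1 := Nat.lt_floor_add_one _
  have he0 : 0 ≤ η / 4 * R := by positivity
  have he1 : (⌊η / 4 * R⌋₊ : ℝ) ≤ η / 4 * R := Nat.floor_le he0
  have he2 : η / 4 * R < ⌊η / 4 * R⌋₊ + 1 := Nat.lt_floor_add_one _
  have hd1 : d * R < ⌊d * R⌋₊ + 1 := Nat.lt_floor_add_one _
  have j8' : (2 * ⌊η * R⌋₊ * m ^ 3 : ℝ) ≤ θ * R := by
    calc (2 * ⌊η * R⌋₊ * m ^ 3 : ℝ) = 2 * (m : ℝ) ^ 3 * ⌊η * R⌋₊ := by ring
      _ ≤ 2 * (m : ℝ) ^ 3 * (η * R) := mul_le_mul_of_nonneg_left hh1 (by positivity)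
      _ = 2 * (m : ℝ) ^ 3 * η * R := by ring
      _ ≤ θ * R := mul_le_mul_of_nonneg_right hηm hR0
  generalize ⌊θ * R⌋₊ = D at *
  generalize ⌊η * R⌋₊ = h at *
  generalize ⌊η / 4 * R⌋₊ = e at *
  generalize ⌊d * R⌋₊ = d' at *
  refine ⟨?_, hD3, ?_, ?_, ?_, ?_, ?_, ?_, ?_, ?_, by linarith⟩
  · have : (1 : ℝ) ≤ r := k3.trans hcr
    exact_mod_cast this
  · have : (2 * D + 11 : ℝ) ≤ d' := by linarith
    exact_mod_cast this
  · have : (64 : ℝ) ≤ e := by linarith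
    exact_mod_cast this
  · have : (e : ℝ) < D + 1 := by linarith
    have : e < D + 1 := by exact_mod_cast this
    omega
  · have : (2 * e + 2 : ℝ) ≤ h := by linarith
    exact_mod_cast this
  · have : (ri + D + D + 3 : ℝ) ≤ ro := by linarith
    exact_mod_cast this
  · have : (ri + D + D + (2 * D + 20) : ℝ) ≤ r1 := by linarith
    exact_mod_cast this
  · have : (ro : ℝ) ≤ r1 := by linarith
    exact_mod_cast this
  · have h2 : (2 * h * m ^ 3 : ℝ) ≤ D + 1 := by linarith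
    exact_mod_cast h2

open Classical in
/-- Markov -/
theorem markov_flux {T : Temp} {xS : ℤ} {q : Pt} {r r1 ri ro h k d D e m : ℕ} {C ε : ℝ}
    (hr : 1 ≤ r) (hx : (16 * r : ℤ) ≤ |q.1 - xS|) (hr2 : r1 + 3 ≤ 2 * r)
    (hM : ∀ b, Ex T.V (fun ω => if DomN T xS q r k r1 d ω then
      Fb T xS q r k ro h r1 (ri + D) D e b ω else 0) ≤ C) (_hε : 0 < ε)
    (hm1 : 384 ≤ Real.log m) (hm2 : 144 * (C + 1) ≤ Real.log m * ε) (j1 : 2 * D + 11 ≤ d)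
    (j2 : 64 ≤ e) (j3 : e ≤ D) (j4 : 2 * e + 2 ≤ h) (j5 : ri + D + D + 3 ≤ ro) (j7 : ro ≤ r1)
    (j8 : 2 * h * m ^ 3 ≤ D + 1) :
    Pr T.V (fun ω => SepN T xS ω q r k r1 d ∧ FirstIn T xS ω q r k ri ro h) ≤ ε := by
  set G : Conf → ℝ := fun ω => (if DomN T xS q r k r1 d ω then
      Fb T xS q r k ro h r1 (ri + D) D e false ω else 0) +
    (if DomN T xS q r k r1 d ω then Fb T xS q r k ro h r1 (ri + D) D e true ω else 0) with hG
  have hG0 : ∀ ω ∈ DD T.V, 0 ≤ G ω := by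
    intro ω _
    simp only [hG]
    have h1 := Fb_nonneg (T := T) (xS := xS) (ω := ω) (q := q) (r := r) (k := k) (r1 := r1)
      (a := ri + D) (s := D) (e := e) (by omega) ro h false
    have h2 := Fb_nonneg (T := T) (xS := xS) (ω := ω) (q := q) (r := r) (k := k) (r1 := r1)
      (a := ri + D) (s := D) (e := e) (by omega) ro h true
    by_cases hd : DomN T xS q r k r1 d ω
    · rw [if_pos hd, if_pos hd]
      exact add_nonneg h1 h2
    · rw [if_neg hd, if_neg hd, add_zero]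
  have hGE : Ex T.V G ≤ 2 * C := by
    simp only [hG]
    rw [H12.Ex_add]
    linarith [hM false, hM true]
  have hlog : 0 < Real.log m := by linarith
  have hPr : Pr T.V (fun ω => SepN T xS ω q r k r1 d ∧ FirstIn T xS ω q r k ri ro h) ≤
      Pr T.V (fun ω => Real.log m / 72 < G ω) := by
    apply E.Pr_mono
    rintro ω hω ⟨hs, hF⟩
    obtain ⟨hDm, b, hb⟩ := low_ev (a := ri + D) (s := D) (e := e) (Dr := D) (m := m) hω hr hx hr2
      hs hF (by omega) (by omega) j7 (by omega) le_rfl (by omega) (by omega) hm1 j8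
    have h1 := Fb_nonneg (T := T) (xS := xS) (ω := ω) (q := q) (r := r) (k := k) (r1 := r1)
      (a := ri + D) (s := D) (e := e) (by omega) ro h false
    have h2 := Fb_nonneg (T := T) (xS := xS) (ω := ω) (q := q) (r := r) (k := k) (r1 := r1)
      (a := ri + D) (s := D) (e := e) (by omega) ro h true
    simp only [hG]
    rw [if_pos hDm, if_pos hDm]
    cases b
    · linarith
    · linarith
  refine hPr.trans ((E.markov T.V G hG0 (by positivity)).trans ?_)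
  have h1 : (Real.log m / 72)⁻¹ * Ex T.V G ≤ (Real.log m / 72)⁻¹ * (2 * C) :=
    mul_le_mul_of_nonneg_left hGE (by positivity)
  refine h1.trans ?_
  rw [inv_mul_le_iff₀ (by positivity)]
  linarith

/-- **`T1P`** -/
theorem t1p : NT276.T1P := by
  classical
  intro c δ d ζ ε hc hδ hd hζ hε
  obtain ⟨θ, hθ⟩ : ∃ θ : ℝ, θ = min (min c d) (min δ ζ) / 8 := ⟨_, rfl⟩
  have hθ0 : 0 < θ := by
    rw [hθ]
    have : 0 < min (min c d) (min δ ζ) := lt_min (lt_min hc hd) (lt_min hδ hζ)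
    positivity
  have hθd : 8 * θ ≤ d := by
    rw [hθ]
    have := (min_le_left (min c d) (min δ ζ)).trans (min_le_right c d)
    linarith
  have hθδ : 8 * θ ≤ δ := by
    rw [hθ]
    have := (min_le_right (min c d) (min δ ζ)).trans (min_le_left δ ζ)
    linarith
  have hθζ : 8 * θ ≤ ζ := by
    rw [hθ]
    have := (min_le_right (min c d) (min δ ζ)).trans (min_le_right δ ζ)
    linarith
  clear hθ
  obtain ⟨C, hC, hmean⟩ := mean_flux c (θ / 2) hc (by positivity)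
  -- the number `m`
  obtain ⟨m, hm1, hm2⟩ : ∃ m : ℕ, 384 ≤ Real.log m ∧ 144 * (C + 1) / ε ≤ Real.log m := by
    have h1 := Real.tendsto_log_atTop.comp (tendsto_natCast_atTop_atTop (R := ℝ))
    exact ((h1.eventually (Filter.eventually_ge_atTop 384)).and
      (h1.eventually (Filter.eventually_ge_atTop (144 * (C + 1) / ε)))).exists
  rw [div_le_iff₀ hε] at hm2
  have hm0 : 1 ≤ m := by
    rcases Nat.eq_zero_or_pos m with h | h
    · rw [h] at hm1; norm_num at hm1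
    · exact h
  have hmr : (1 : ℝ) ≤ (m : ℝ) ^ 3 := one_le_pow₀ (by exact_mod_cast hm0)
  refine ⟨θ / (2 * (m : ℝ) ^ 3), by positivity, ?_⟩
  intro η hη hηle
  have hηm : 2 * (m : ℝ) ^ 3 * η ≤ θ := by
    rw [le_div_iff₀ (by positivity)] at hηle
    linarith
  have hηθ : 2 * η ≤ θ := by nlinarith
  obtain ⟨R0, hmean⟩ := hmean (η / 8) (by positivity)
  refine ⟨max (max R0 ⌈2 / θ⌉₊) (max ⌈1000 / η⌉₊ ⌈1 / c⌉₊), ?_⟩
  intro R hR T hfit xS q r r1 ri ro k hcr hrR hx hri hro hr1 hr2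
  simp only [max_le_iff] at hR
  obtain ⟨⟨g0, g1⟩, g2, g3⟩ := hR
  have g1' : 2 / θ ≤ R := (Nat.le_ceil _).trans (by exact_mod_cast g1)
  have g2' : 1000 / η ≤ R := (Nat.le_ceil _).trans (by exact_mod_cast g2)
  have g3' : 1 / c ≤ R := (Nat.le_ceil _).trans (by exact_mod_cast g3)
  rw [div_le_iff₀ hη] at g2'
  rw [div_le_iff₀ hc] at g3'
  obtain ⟨hr, hD3, j1, j2, j3, j4, j5, j6, j7, j8, j9⟩ := scales hθ0 hη hθd hθδ hθζ hηm hηθ g1'
    (by linarith) (by linarith : 1 ≤ c * R) hcr hro hr1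
  exact markov_flux hr hx hr2 (fun b => hmean R g0 T hfit xS q r r1 ro _ k _ _ _ _ _ b hcr hrR hr
    hx hr2 hD3 le_rfl j1 j9 j3 (by omega) (by omega) j4 (by omega) j2) hε hm1 hm2 j1 j2 j3 j4 j5 j7
    j8

end Vale.Agent.P155.NT426
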