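import Vale.Agent.P155.NT426.T1Def
import Vale.Agent.P155.NT34.LowW

/-!
# P155, NT: `T1P`, deterministic part

Between the beginning of the excursion and the first touching in `box q ro` all new faces are far
from the old walls (`new_far`); the flux at the touching time (`flux_le`).
-/

namespace Vale.Agent.P155.NT426

open Finset Vale.Agent.P155 G45 G S743 NT802 NT276 J T802 H12 NT NT905 T905

section

variable {T : Temp} {xS : ℤ} {ω : Conf} {q : Pt} {r k : ℕ}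

theorem tE_eN : (tE T.V xS q r k).N ω = eN T xS ω q r k := tE_N _ _ _ _ _ _

theorem exi_xN : (Tm.exiT T.V xS q (2 * r) (4 * r) (k + 1)).N ω = xN T xS ω q r k :=
  Tm.exiT_N _ _ _ _ _ _ _

/-- the times of an excursion (including its end) -/
theorem run_to (hω : ω ∈ DD T.V) (hr : 1 ≤ r) (hx : (16 * r : ℤ) ≤ |q.1 - xS|)
    (hk : (tE T.V xS q r k).N ω < Tm.M T.V xS ω) {n : ℕ} (h1 : (tE T.V xS q r k).N ω ≤ n)
    (h2 : n ≤ (Tm.exiT T.V xS q (2 * r) (4 * r) (k + 1)).N ω) :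
    Tm.tm T.V xS ω n = ((Tm.tm T.V xS ω ((tE T.V xS q r k).N ω)).1,
      (Tm.tm T.V xS ω ((tE T.V xS q r k).N ω)).2 + (n - (tE T.V xS q r k).N ω)) := by
  have hL : ∀ n, (tE T.V xS q r k).N ω ≤ n →
      n ≤ (Tm.exiT T.V xS q (2 * r) (4 * r) (k + 1)).N ω →
      (Tm.tm T.V xS ω n).1 = (Tm.tm T.V xS ω ((tE T.V xS q r k).N ω)).1 :=
    (NT905.exc_loop hω hr hx hk).2
  induction n, h1 using Nat.le_induction with
  | base => simp
  | succ n hn ih =>
    have h3 := ih (by omega)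
    have h4 := hL (n + 1) (by omega) h2
    rcases Tm.tm_step T.V xS ω n with ⟨t, ht, h5, -, -⟩ | ⟨h5, -⟩
    · exfalso
      rw [h5] at h4
      rw [h3] at ht
      simp only at h4 ht
      omega
    · rw [h5, h3]
      simp only
      congr 1
      omega

/-- the first point of the tip -/
theorem tip_out (hω : ω ∈ DD T.V) (hr : 1 ≤ r) (hx : (16 * r : ℤ) ≤ |q.1 - xS|)
    (hk : (tE T.V xS q r k).N ω < Tm.M T.V xS ω) :
    2 * r ≤ dn q (gN T xS ω (eN T xS ω q r k)) ∧ dn q (gN T xS ω (eN T xS ω q r k)) ≤ 2 * r := by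
  rw [tE_eN] at hk
  refine ⟨NT34.ent_dn hω hr hx hk, ?_⟩
  have h := ent_in (g := fun n => pt' xS ω (Tm.tm T.V xS ω n)) hk
  exact G45.mem_box.1 h

/-- **the new faces are far from the old walls** -/
theorem new_far (hω : ω ∈ DD T.V) (hr : 1 ≤ r) (hx : (16 * r : ℤ) ≤ |q.1 - xS|)
    (hk : (tE T.V xS q r k).N ω < Tm.M T.V xS ω) {ro h A : ℕ} (hA : A + 2 ≤ ro) {y : Pt}
    (hy : y ∈ OE T ((tE T.V xS q r k).toStop.E ω))
    (hy2 : y ∉ OE T ((tU T xS q r ro h k).toStop.E ω)) (hq : dn q y ≤ A) :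
    h ≤ dF (OE T ((tE T.V xS q r k).toStop.E ω)) y + 1 := by
  classical
  obtain ⟨hyF, hyT⟩ := hy
  have hle := tE_le_tU T xS q r ro h k ω
  have hexi := tU_le_exi T xS q r ro h k ω
  have hrun := fun {n : ℕ} => run_to (n := n) hω hr hx hk
  -- a new corner
  obtain ⟨w, hwc, hw2⟩ : ∃ w ∈ T802.corners y, w ∈ (tU T xS q r ro h k).toStop.E ω := by
    by_contra hc
    refine hy2 ⟨hyF, ?_⟩
    rintro ⟨w, h1, h2⟩
    exact hc ⟨w, h1, h2⟩
  have hw1 : w ∉ (tE T.V xS q r k).toStop.E ω := fun h => hyT ⟨w, hwc, h⟩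
  -- it is a point of the tip
  obtain ⟨m, hm1, hm2, hm3⟩ : ∃ m, (tE T.V xS q r k).N ω < m ∧ m ≤ (tU T xS q r ro h k).N ω ∧
      w = gN T xS ω m := by
    have e2 : (tU T xS q r ro h k).toStop.E ω =
        Eti xS ω (Tm.tm T.V xS ω ((tU T xS q r ro h k).N ω)).1
          (Tm.tm T.V xS ω ((tU T xS q r ro h k).N ω)).2 := rfl
    have e1 : (tE T.V xS q r k).toStop.E ω =
        Eti xS ω (Tm.tm T.V xS ω ((tE T.V xS q r k).N ω)).1
          (Tm.tm T.V xS ω ((tE T.V xS q r k).N ω)).2 := rfl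
    rw [e2, hrun hle hexi] at hw2
    rw [e1] at hw1
    simp only at hw2
    rcases hw2 with h1 | ⟨j, hj, hwj⟩
    · exact absurd (Or.inl h1) hw1
    · have hj1 : (Tm.tm T.V xS ω ((tE T.V xS q r k).N ω)).2 < j := by
        by_contra hc
        exact hw1 (Or.inr ⟨j, not_lt.1 hc, hwj⟩)
      refine ⟨(tE T.V xS q r k).N ω + (j - (Tm.tm T.V xS ω ((tE T.V xS q r k).N ω)).2), by omega,
        by omega, ?_⟩
      unfold gN pt'
      rw [hrun (by omega) (by omega), hwj]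
      simp only
      congr 1
      omega
  have hwy : dn w y ≤ 1 := NT34.dn_corner hwc
  have hfst : ∀ m', (tE T.V xS q r k).N ω ≤ m' → m' < (tU T xS q r ro h k).N ω →
      dn q (gN T xS ω m') ≤ ro → ∀ a, a ∉ OE T ((tE T.V xS q r k).toStop.E ω) →
      h < dn (gN T xS ω m') a := by
    intro m' h1 h2 h3 a ha
    obtain ⟨h4, -⟩ := NT802.not_of_lt h1 h2
    by_contra hc
    exact h4 ⟨G45.mem_box.2 h3, a, ha, not_lt.1 hc⟩
  have hO : ∃ p, p ∉ OE T ((tE T.V xS q r k).toStop.E ω) :=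
    exists_notMem (oe_finite T ((tE T.V xS q r k).toStop.E ω))
  obtain ⟨a, ha, hda⟩ := exists_dF hO y
  have hqw : dn q w ≤ A + 1 := by
    have := G45.dn_tri q y w
    rw [G45.dn_comm y w] at this
    omega
  rcases hm2.lt_or_eq with hlt | heq
  · have h1 := hfst m hm1.le hlt (by rw [← hm3]; omega) a ha
    rw [← hm3] at h1
    have h2 := G45.dn_tri w y a
    omega
  · have hst : dn (gN T xS ω (m - 1)) (gN T xS ω m) ≤ 1 := by
      have h1 := hrun (n := m - 1) (by omega) (by omega)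
      have h2 := hrun (n := m) (by omega) (by omega)
      have hv := (Tm.valid' hω hk)
      have hne : ω.1 (xS, (Tm.tm T.V xS ω ((tE T.V xS q r k).N ω)).1) ≠
          ω.2 (xS, (Tm.tm T.V xS ω ((tE T.V xS q r k).N ω)).1) := (tE_new hω hr hx hk).1
      have h3 := NT.Go.go_adj hω hne ((Tm.tm T.V xS ω ((tE T.V xS q r k).N ω)).2 +
        (m - 1 - (tE T.V xS q r k).N ω))
      unfold gN pt'
      rw [h1, h2]
      simp only
      rw [show (Tm.tm T.V xS ω ((tE T.V xS q r k).N ω)).2 + (m - (tE T.V xS q r k).N ω) =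
        (Tm.tm T.V xS ω ((tE T.V xS q r k).N ω)).2 + (m - 1 - (tE T.V xS q r k).N ω) + 1 by omega]
      exact NT276.dn_le_one_of_adj h3
    have h4 := G45.dn_tri q (gN T xS ω m) (gN T xS ω (m - 1))
    rw [G45.dn_comm (gN T xS ω m), ← hm3] at h4
    rw [← hm3] at hst
    have h1 := hfst (m - 1) (by omega) (by omega) (by omega) a ha
    have h2 := G45.dn_tri (gN T xS ω (m - 1)) w a
    have h3 := G45.dn_tri w y a
    omega

end

theorem phS_new {O : Set Pt} {P : Pt → Prop} {q : Pt} {r1 a s e : ℕ} (hO : ∃ p, p ∉ O)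
    (hs : 16 ≤ s) (he : 16 ≤ e) {y : Pt} (h : dn q y ≤ a + s + 1 → 2 * e + 1 ≤ dF O y) :
    phS O P q r1 a s e y = 0 := by
  by_cases hq : dn q y ≤ a + s + 1
  · unfold phS
    rw [lapGG_in hO he (h hq), mul_zero, ite_self]
  · exact phS_far hs (by omega)

/-- **the flux at the later time** in terms of the change of `∑ phS H` -/
theorem flux_le {O O2 : Set Pt} {P : Pt → Prop} {q : Pt} {r1 d a s e D : ℕ} (hO : O.Finite)
    (h2 : O2.Finite) (hsub : O2 ⊆ O) (hsep : SepA O P q r1 d) (hd : 2 * D + 11 ≤ d) (hs : 16 ≤ s)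
    (he : 64 ≤ e) (heD : e ≤ D) (hDs : D ≤ s) (hr : a + s + (2 * D + 12) ≤ r1) {H1 H2 : Pt → ℝ}
    (hH1 : ∀ x ∈ O, lap H1 x = 0) (hH2 : ∀ x ∈ O2, lap H2 x = 0) (hb1 : ∀ x, |H1 x| ≤ 1)
    (hb2 : ∀ x, |H2 x| ≤ 1) (hP1 : ∀ b, b ∉ O → P b → H1 b = 0)
    (hP2 : ∀ b, b ∉ O → P b → H2 b = 0)
    (hnew : ∀ y ∈ O, y ∉ O2 → dn q y ≤ a + s + 1 → 2 * e + 1 ≤ dF O y) :
    ∑ x ∈ h2.toFinset, wh O2 (wS O P q r1 a s e) x * H2 x ≤
      ∑ x ∈ hO.toFinset, phS O P q r1 a s e x * (H2 x - H1 x) +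
        4210688 * ((2 * ((a : ℝ) + s) + 3) / D) ^ 2 := by
  classical
  have hO' := exists_notMem hO
  have hD0 : (0 : ℝ) < D := by
    have : 0 < D := by omega
    exact_mod_cast this
  have hs0 : (0 : ℝ) < s := by
    have : 0 < s := by omega
    exact_mod_cast this
  have i2 := ident hO hsep (by omega) hs he (by omega) h2 hsub hH2 hb2
    (fun b h3 h4 _ => hP2 b h3 h4) hnew
  have i1 := ident (a := a) hO hsep (by omega) hs he (by omega) hO subset_rfl hH1 hb1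
    (fun b h3 h4 _ => hP1 b h3 h4) (fun y hy hy' => absurd hy hy')
  have i3 := flux_first (e := e) hO hsep hd hs (by omega) (by omega) hDs hr hH1 hb1
    (fun b h3 h4 _ => hP1 b h3 h4)
  have e1 : ∑ x ∈ hO.toFinset, phS O P q r1 a s e x * H2 x =
      ∑ x ∈ h2.toFinset, phS O P q r1 a s e x * H2 x := by
    symm
    refine Finset.sum_subset (fun x hx => ?_) fun x hx hx2 => ?_
    · rw [Set.Finite.mem_toFinset] at hx ⊢
      exact hsub hx
    · rw [Set.Finite.mem_toFinset] at hx hx2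
      rw [phS_new hO' hs (by omega) (hnew x hx hx2), zero_mul]
  have e2 : ∑ x ∈ hO.toFinset, phS O P q r1 a s e x * (H2 x - H1 x) =
      ∑ x ∈ h2.toFinset, phS O P q r1 a s e x * H2 x -
      ∑ x ∈ hO.toFinset, phS O P q r1 a s e x * H1 x := by
    rw [← e1, ← Finset.sum_sub_distrib]
    refine Finset.sum_congr rfl fun x _ => ?_
    ring
  rw [e2]
  have hX : ((2 * ((a : ℝ) + s) + 3) / s) ^ 2 ≤ ((2 * ((a : ℝ) + s) + 3) / D) ^ 2 := by
    refine pow_le_pow_left₀ (by positivity) ?_ 2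
    exact div_le_div_of_nonneg_left (by positivity) hD0 (by exact_mod_cast hDs)
  rw [abs_le] at i1 i2 i3
  linarith [i1.1, i1.2, i2.1, i2.2, i3.1, i3.2]

end Vale.Agent.P155.NT426
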