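import Vale.Agent.P155.NT426.T1a
import Vale.Agent.P155.NT211.ErrP

/-!
# P155, NT: `T1P`, the flux at the touching time for the two sides, its mean
-/

namespace Vale.Agent.P155.NT426

open Finset Vale.Agent.P155 G45 G S743 NT802 NT276 J T802 H12 NT NT905 T905 NT743 NT211

/-- the harmonic measure which vanishes on the side `b` -/
def HHt : Bool → (Pt → ℝ) → Pt → ℝ
  | true, H, x => 1 - H x
  | false, H, x => H x

/-- the side in terms of the type -/
def QQt : Bool → Prop → Prop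
  | true, s => s
  | false, s => ¬ s

/-- the sign of the side -/
def sgt : Bool → ℝ
  | true => -1
  | false => 1

section

variable {T : Temp} {xS : ℤ} {ω : Conf} {q : Pt} {r k r1 d a s e : ℕ}

theorem side_iff (hN : (tE T.V xS q r k).toStop.New ω) (b : Bool) {f : Pt}
    (hf : f ∉ OE T ((tE T.V xS q r k).toStop.E ω)) :
    SideP T xS q r k b ω f ↔ QQt b (surr ω ((tE T.V xS q r k).toStop.L ω) f) := by
  cases b
  · exact sideP_false hN hf
  · exact sideP_true hN hf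

theorem wS_congr {O : Set Pt} {P P' : Pt → Prop} {q : Pt} {r1 a s e : ℕ}
    (h : ∀ b, b ∉ O → (P b ↔ P' b)) : wS O P q r1 a s e = wS O P' q r1 a s e := by
  funext x
  unfold wS
  have e1 : ((x ∈ O ∧ Seen O P q r1 (2 * e + 10) x) ∨ (x ∉ O ∧ P x)) ↔
      ((x ∈ O ∧ Seen O P' q r1 (2 * e + 10) x) ∨ (x ∉ O ∧ P' x)) := by
    rw [Seen.congr h]
    constructor
    · rintro (h1 | h1)
      · exact Or.inl h1
      · exact Or.inr ⟨h1.1, (h x h1.1).1 h1.2⟩
    · rintro (h1 | h1)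
      · exact Or.inl h1
      · exact Or.inr ⟨h1.1, (h x h1.1).2 h1.2⟩
  by_cases hx : (x ∈ O ∧ Seen O P q r1 (2 * e + 10) x) ∨ (x ∉ O ∧ P x)
  · rw [if_pos hx, if_pos (e1.1 hx)]
  · rw [if_neg hx, if_neg (fun h => hx (e1.2 h))]

/-! ## the harmonic measures -/

theorem hht_nonneg (τ : Stop T.V xS) (b : Bool) (x : Pt) : 0 ≤ HHt b (τ.Hf ω) x := by
  have h1 := (τ.Hf_spec ω).nonneg x
  have h2 := (τ.Hf_spec ω).le_one x
  cases b
  · exact h1
  · exact sub_nonneg.2 h2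

theorem hht_le_one (τ : Stop T.V xS) (b : Bool) (x : Pt) : HHt b (τ.Hf ω) x ≤ 1 := by
  have h1 := (τ.Hf_spec ω).nonneg x
  have h2 := (τ.Hf_spec ω).le_one x
  cases b
  · exact h2
  · exact sub_le_self _ h1

theorem hht_abs (τ : Stop T.V xS) (b : Bool) (x : Pt) : |HHt b (τ.Hf ω) x| ≤ 1 := by
  rw [abs_of_nonneg (hht_nonneg τ b x)]
  exact hht_le_one τ b x

theorem hht_lap (τ : Stop T.V xS) (b : Bool) {x : Pt} (hx : x ∈ OE T (τ.E ω)) :
    lap (HHt b (τ.Hf ω)) x = 0 := by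
  have h := (τ.Hf_spec ω).1 x hx
  cases b
  · exact h
  · have e : HHt true (τ.Hf ω) = fun x => 1 - τ.Hf ω x := rfl
    rw [e, G45.lap_sub, G45.lap_const, h, sub_zero]

/-- the values on the old walls -/
theorem hht_zero {τ : Stop T.V xS} (hL : τ.L ω = (tE T.V xS q r k).toStop.L ω)
    (hsub : OE T (τ.E ω) ⊆ OE T ((tE T.V xS q r k).toStop.E ω))
    (hN : (tE T.V xS q r k).toStop.New ω) (b : Bool) {f : Pt}
    (hf : f ∉ OE T ((tE T.V xS q r k).toStop.E ω)) (hP : SideP T xS q r k b ω f) :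
    HHt b (τ.Hf ω) f = 0 := by
  have h := (τ.Hf_spec ω).2 f (fun hc => hf (hsub hc))
  unfold Stop.bd at h
  rw [hL] at h
  have h2 := (side_iff hN b hf).1 hP
  cases b
  · have h3 : ¬ surr ω ((tE T.V xS q r k).toStop.L ω) f := h2
    rw [if_neg h3] at h
    exact h
  · have h3 : surr ω ((tE T.V xS q r k).toStop.L ω) f := h2
    rw [if_pos h3] at h
    show 1 - τ.Hf ω f = 0
    rw [h, sub_self]

theorem hht_diff (b : Bool) (H H' : Pt → ℝ) (x : Pt) :
    HHt b H x - HHt b H' x = sgt b * (H x - H' x) := by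
  cases b
  · show H x - H' x = 1 * (H x - H' x)
    ring
  · show (1 - H x) - (1 - H' x) = (-1) * (H x - H' x)
    ring

theorem sgt_mul_le (b : Bool) (x : ℝ) : sgt b * x ≤ |x| := by
  cases b
  · show 1 * x ≤ |x|
    rw [one_mul]
    exact le_abs_self x
  · show (-1) * x ≤ |x|
    have := neg_abs_le x
    linarith

/-! ## the flux at the touching time -/

/-- the explored sets increase -/
theorem oe_sub (ro h : ℕ) : OE T ((tU T xS q r ro h k).toStop.E ω) ⊆
    OE T ((tE T.V xS q r k).toStop.E ω) :=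
  NT802.OE_anti (Tm.En_mono (tE_le_tU T xS q r ro h k ω))

/-- the flux of the side `b` at the touching time -/
noncomputable def Fb (T : Temp) (xS : ℤ) (q : Pt) (r k ro h r1 a s e : ℕ) (b : Bool) (ω : Conf) :
    ℝ :=
  FxU T xS ω q r k ro h r1 a s e (SideP T xS q r k b ω)
    (HHt b ((tU T xS q r ro h k).toStop.Hf ω))

theorem Fb_nonneg (he : 16 ≤ e) (ro h : ℕ) (b : Bool) :
    0 ≤ Fb T xS q r k ro h r1 a s e b ω := by
  unfold Fb FxU
  refine Finset.sum_nonneg fun x _ => ?_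
  exact mul_nonneg (wh_nonneg (fun y => wS_nonneg he y) x) (hht_nonneg _ b x)

theorem flux_side (hω : ω ∈ DD T.V) (hr : 1 ≤ r) (hx : (16 * r : ℤ) ≤ |q.1 - xS|)
    (hd : DomN T xS q r k r1 d ω) {ro h D : ℕ} (hDd : 2 * D + 11 ≤ d) (hs : 16 ≤ s) (he : 64 ≤ e)
    (heD : e ≤ D) (hDs : D ≤ s) (hr1 : a + s + (2 * D + 12) ≤ r1) (hro : a + s + 3 ≤ ro)
    (heh : 2 * e + 2 ≤ h) (b : Bool) :
    Fb T xS q r k ro h r1 a s e b ω ≤
    sgt b * (∑ x ∈ (oe_finite T ((tE T.V xS q r k).toStop.E ω)).toFinset,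
      phS (OE T ((tE T.V xS q r k).toStop.E ω)) (SideP T xS q r k b ω) q r1 a s e x *
        ((tU T xS q r ro h k).toStop.Hf ω x - (tE T.V xS q r k).toStop.Hf ω x)) +
      4210688 * ((2 * ((a : ℝ) + s) + 3) / D) ^ 2 := by
  have hN := hd.2.1
  have h := flux_le (oe_finite T ((tE T.V xS q r k).toStop.E ω))
    (oe_finite T ((tU T xS q r ro h k).toStop.E ω)) (oe_sub ro h) (sepA_side hN hd.2.2 b) hDd hs he
    heD hDs hr1 (H1 := HHt b ((tE T.V xS q r k).toStop.Hf ω))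
    (H2 := HHt b ((tU T xS q r ro h k).toStop.Hf ω))
    (fun x hx => hht_lap _ b hx) (fun x hx => hht_lap _ b hx) (fun x => hht_abs _ b x)
    (fun x => hht_abs _ b x)
    (fun f hf hP => hht_zero rfl subset_rfl hN b hf hP)
    (fun f hf hP => hht_zero (tU_facts hω hr hx hd.1).2.2 (oe_sub ro h) hN b hf hP)
    (fun y hy hy2 hq => by
      have := new_far hω hr hx hd.1 (A := a + s + 1) (by omega) hy hy2 hq
      omega)
  unfold Fb FxU
  refine h.trans (le_of_eq ?_)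
  congr 1
  rw [Finset.mul_sum]
  refine Finset.sum_congr rfl fun x _ => ?_
  rw [hht_diff]
  ring

open Classical in
/-- **the mean of the flux at the touching time** -/
theorem mean_flux (c δ : ℝ) (hc : 0 < c) (hδ : 0 < δ) : ∃ C : ℝ, 0 ≤ C ∧ ∀ κ : ℝ, 0 < κ →
    ∃ R0 : ℕ, ∀ R : ℕ, R0 ≤ R → ∀ T : Temp, Skel.Fits T R →
    ∀ (xS : ℤ) (q : Pt) (r r1 ro h k d a s e D : ℕ) (b : Bool), c * R ≤ r → r ≤ R → 1 ≤ r →
    (16 * r : ℤ) ≤ |q.1 - xS| → r1 + 3 ≤ 2 * r → δ * R ≤ D → D ≤ s → 2 * D + 11 ≤ d →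
    κ * R ≤ e → e ≤ D → a + s + (2 * D + 20) ≤ r1 → a + s + 3 ≤ ro → 2 * e + 2 ≤ h →
    16 ≤ s → 64 ≤ e →
    Ex T.V (fun ω => if DomN T xS q r k r1 d ω then Fb T xS q r k ro h r1 a s e b ω else 0) ≤
      C := by
  obtain ⟨C, hC, herr⟩ := err_phS c δ hc hδ
  refine ⟨C + 4210688 * (4 / δ) ^ 2, by positivity, ?_⟩
  intro κ hκ
  obtain ⟨R0, herr⟩ := herr κ hκ
  refine ⟨R0, ?_⟩
  intro R hR T hfit xS q r r1 ro h k d a s e D b hcr hrR hr hx hr1 hδD hDs hDd hκe heD har1 haro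
    heh hs he
  have h1 := herr R hR T hfit xS q r r1 ro h k d a s e D b hcr hrR hx hr1 hδD hDs hDd hκe heD har1
    haro heh
  have hD0 : (0 : ℝ) < D := by
    have : 0 < D := by omega
    exact_mod_cast this
  have hK : (0 : ℝ) ≤ 4210688 * (4 / δ) ^ 2 := by positivity
  have hX : 4210688 * ((2 * ((a : ℝ) + s) + 3) / D) ^ 2 ≤ 4210688 * (4 / δ) ^ 2 := by
    refine mul_le_mul_of_nonneg_left (pow_le_pow_left₀ (by positivity) ?_ 2) (by norm_num)
    have h2 : 2 * ((a : ℝ) + s) + 3 ≤ 4 * R := by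
      have h3 : 2 * (a + s) + 3 ≤ 4 * r := by omega
      have h4 : 2 * ((a : ℝ) + s) + 3 ≤ 4 * r := by exact_mod_cast h3
      have h5 : (r : ℝ) ≤ R := by exact_mod_cast hrR
      linarith
    rw [div_le_div_iff₀ hD0 hδ]
    nlinarith
  have h2 : Ex T.V (fun ω => if DomN T xS q r k r1 d ω then Fb T xS q r k ro h r1 a s e b ω
      else 0) ≤ Ex T.V (fun ω => 4210688 * (4 / δ) ^ 2 +
        sgt b * dInt T xS q r r1 ro h k d a s e b ω) := by
    apply H12.Ex_mono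
    intro ω hω
    unfold dInt
    by_cases hd : DomN T xS q r k r1 d ω
    · rw [if_pos hd, if_pos hd]
      have := flux_side hω hr hx hd hDd hs he heD hDs (by omega) haro heh b
      linarith
    · rw [if_neg hd, if_neg hd, mul_zero, add_zero]
      exact hK
  refine h2.trans ((NT743.Ex_const_add hK _).trans ?_)
  rw [H12.Ex_mul]
  have h3 := sgt_mul_le b (Ex T.V (dInt T xS q r r1 ro h k d a s e b))
  linarith

end

end Vale.Agent.P155.NT426
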